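import Vale.Agent.P287D.Ru.Unr
import Vale.Agent.P287D.On.Cur
import Vale.Agent.P287D.Cb.Hur
import Vale.Agent.P287D.Pb.Res

/-!
# P287D, block RUL: the rational points of `C(u)`, the canonical divisor
-/

open Set Polynomial
open Vale.Agent.P285N.Brep (jac Fr)
open Vale.Agent.P297Z Vale.Agent.P287D.Cb

noncomputable section

namespace Vale.Agent.P287D.Ru

variable {M : Type} [Field M] [Algebra ℂ M] {C : IntermediateField ℂ M} {u z : M} {m n : ℕ}
  {P P' : Pl M}

/-- `M = C(u)` -/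
def Co (C : IntermediateField ℂ M) (u : M) : Prop := IntermediateField.adjoin C {u} = ⊤

theorem Co.trans (h1 : Algebra.trdeg C M = 1) (h : Co C u) : Transcendental C u := fun a => by
  have : Algebra.IsAlgebraic C M := ⟨fun x => by
    have hx : x ∈ IntermediateField.adjoin C {u} := by rw [h]; trivial
    have := IntermediateField.isAlgebraic_adjoin_simple a.isIntegral
    exact IntermediateField.isAlgebraic_iff.1 (this.isAlgebraic ⟨x, hx⟩)⟩
  rw [trdeg_eq_zero_iff.2 this] at h1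
  exact zero_ne_one h1

theorem liou (hM : FF M m) (h1 : Algebra.trdeg C M = 1) (hz : Transcendental C z) :
    ∃ P : Pl M, Hor C P ∧ 0 < P.ord z := by
  have z0 : z ≠ 0 := fun e => hz (e ▸ isAlgebraic_zero)
  have zm : z ∈ (Algebra.adjoin C {z}).toSubring := Algebra.subset_adjoin rfl
  obtain ⟨B, h2, h3⟩ := Ideal.image_subset_nonunits_valuationSubring
    (A := (Algebra.adjoin C {z}).toSubring) (Ideal.span {⟨z, zm⟩}) fun e => by
      obtain ⟨⟨w, hw⟩, k⟩ := Ideal.mem_span_singleton'.1 ((Ideal.eq_top_iff_one _).1 e)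
      have k' : w * z = 1 := congrArg Subtype.val k
      change w ∈ Algebra.adjoin C {z} at hw
      rw [Algebra.adjoin_singleton_eq_range_aeval] at hw
      obtain ⟨p, rfl⟩ := hw
      refine hz ⟨p * X - 1, fun e => ?_, by simpa [sub_eq_zero] using k'⟩
      simpa using congrArg (eval 0) e
  have nz : z⁻¹ ∉ B := (B.mem_nonunits_iff_or.1
    (h3 ⟨_, Ideal.subset_span rfl, rfl⟩)).resolve_left z0
  have hk : ∀ a ∈ C, a ∈ B := fun a ha => h2 ((Algebra.adjoin C {z}).algebraMap_mem ⟨a, ha⟩)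
  obtain ⟨P, rfl⟩ := On.exists_pl hM h1 B (fun e => nz (e ▸ trivial)) hk
  exact ⟨P, hk, Pl.ord_pos_of_inv_notMem _ nz⟩

theorem hor_ord (h : Hor C P) (hz : z ∈ C) : P.ord z = 0 :=
  Pl.ord_unit _ (h z hz) (h _ (inv_mem hz))

theorem one_ord (h : Mx P (z - 1)) : z ≠ 0 ∧ P.ord z = 0 :=
  not_mx (by simpa using add_mem h.mem (one_mem P.ring)) fun k =>
    not_mx_one (by simpa using k.sub h)

theorem one_div {w : M} (h : Mx P (z - 1)) (k : Mx P (w - 1)) : Mx P (z / w - 1) := by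
  have := (h.sub k).mul (inv_mem_ord (one_ord k).2)
  have w0 := (one_ord k).1
  rwa [show w⁻¹ * (z - 1 - (w - 1)) = z / w - 1 by field_simp; ring] at this

theorem aeval_mem (h : Hor C P) (hu : u ∈ P.ring) (p : C[X]) : aeval u p ∈ P.ring := by
  induction p using Polynomial.induction_on with
  | C a => rw [aeval_C]; exact h a a.2
  | add p q hp hq => rw [map_add]; exact add_mem hp hq
  | monomial n a k => rw [pow_succ, ← mul_assoc, map_mul, aeval_X]; exact mul_mem k hu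

theorem lead_poly (u0 : u ≠ 0) {p : C[X]} (hp : p ≠ 0) : ∃ (k : ℕ) (c : M), c ∈ C ∧ c ≠ 0 ∧
    ∀ P : Pl M, Hor C P → 0 < P.ord u → Mx P (aeval u p / (c * u ^ k) - 1) := by
  obtain ⟨q, e, hq⟩ := exists_eq_pow_rootMultiplicity_mul_and_not_dvd p hp 0
  rw [C_0, sub_zero] at e hq
  rw [X_dvd_iff] at hq
  have c0 : (q.coeff 0 : M) ≠ 0 := fun k => hq (Subtype.ext k)
  refine ⟨p.rootMultiplicity 0, q.coeff 0, (q.coeff 0).2, c0, fun P h k => ?_⟩
  have mu : Mx P u := mx_iff.2 (Or.inr k)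
  have := mu.mul (mul_mem (h _ (inv_mem (q.coeff 0).2)) (aeval_mem h mu.mem q.divX))
  have e1 := congrArg (aeval u) e
  have e2 := congrArg (aeval u) (divX_mul_X_add q)
  simp only [map_mul, map_pow, aeval_X, map_add, aeval_C] at e1 e2
  change _ + (q.coeff 0 : M) = _ at e2
  rwa [show (q.coeff 0 : M)⁻¹ * aeval u q.divX * u =
    aeval u p / (q.coeff 0 * u ^ p.rootMultiplicity 0) - 1 by
      rw [e1, ← e2]; field_simp; ring] at this

theorem Co.lead (h : Co C u) (u0 : u ≠ 0) (z0 : z ≠ 0) : ∃ (k : ℤ) (c : M), c ∈ C ∧ c ≠ 0 ∧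
    ∀ P : Pl M, Hor C P → 0 < P.ord u → Mx P (z / (c * u ^ k) - 1) := by
  obtain ⟨p, q, rfl⟩ := (IntermediateField.mem_adjoin_simple_iff C z).1
    (show z ∈ IntermediateField.adjoin C {u} by rw [h]; trivial)
  obtain ⟨k, c, c1, c0, hc⟩ := lead_poly u0 (p := p) fun e => z0 (by simp [e])
  obtain ⟨l, d, d1, d0, hd⟩ := lead_poly u0 (p := q) fun e => z0 (by simp [e])
  refine ⟨k - l, c / d, div_mem c1 d1, div_ne_zero c0 d0, fun P a b => ?_⟩
  have := one_div (hc P a b) (hd P a b)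
  rwa [show aeval u p / (c * u ^ k) / (aeval u q / (d * u ^ l)) =
    aeval u p / aeval u q / (c / d * u ^ ((k : ℤ) - l)) by
      rw [zpow_sub₀ u0, zpow_natCast, zpow_natCast]; field_simp] at this

theorem ord_lead {k : ℤ} {c : M} (h : Hor C P) (u0 : u ≠ 0) (c1 : c ∈ C) (c0 : c ≠ 0)
    (e : Mx P (z / (c * u ^ k) - 1)) : P.ord z = k * P.ord u := by
  obtain ⟨a, b⟩ := one_ord e
  have k0 : u ^ k ≠ 0 := zpow_ne_zero _ u0
  rw [Pl.ord_div _ (div_ne_zero_iff.1 a).1 (div_ne_zero_iff.1 a).2, Pl.ord_mul _ c0 k0,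
    hor_ord h c1, Pl.ord_zpow] at b
  omega

theorem ne_of_pos (k : 0 < P.ord u) : u ≠ 0 := fun e => by simp [e] at k

theorem Co.ord_one (h : Co C u) (a : Hor C P) (k : 0 < P.ord u) : P.ord u = 1 := by
  obtain ⟨j, c, c1, c0, e⟩ := h.lead (ne_of_pos k) P.t_ne
  have := ord_lead a (ne_of_pos k) c1 c0 (e P a k)
  rw [P.ord_t] at this
  exact Int.eq_one_of_mul_eq_one_left k.le this.symm

theorem Co.uniq (h : Co C u) (a : Hor C P) (k : 0 < P.ord u) (a' : Hor C P') (k' : 0 < P'.ord u) :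
    P = P' := by
  refine Pb.pl_ext (ValuationSubring.ext _ _ fun z => ?_)
  by_cases z0 : z = 0
  · simp [z0]
  obtain ⟨j, c, c1, c0, e⟩ := h.lead (ne_of_pos k) z0
  rw [← Pl.ord_nonneg_iff _ z0, ← Pl.ord_nonneg_iff _ z0, ord_lead a (ne_of_pos k) c1 c0 (e P a k),
    ord_lead a' (ne_of_pos k) c1 c0 (e P' a' k'), h.ord_one a k, h.ord_one a' k']

theorem Co.res (h : Co C u) (a : Hor C P) (k : 0 < P.ord u) (hz : z ∈ P.ring) :
    ∃ c ∈ C, Mx P (z - c) := by
  by_cases mz : Mx P z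
  · exact ⟨0, zero_mem _, by rwa [sub_zero]⟩
  obtain ⟨z0, z1⟩ := not_mx hz mz
  obtain ⟨j, c, c1, c0, e⟩ := h.lead (ne_of_pos k) z0
  have := ord_lead a (ne_of_pos k) c1 c0 (e P a k)
  rw [z1, h.ord_one a k, mul_one] at this
  subst this
  refine ⟨c, c1, ?_⟩
  have := (e P a k).mul (a c c1)
  rwa [show c * (z / (c * u ^ (0 : ℤ)) - 1) = z - c by rw [zpow_zero]; field_simp] at this

/-! ### the canonical divisor -/

theorem jac_cons {t : M} {y : Fin n → M} {D : Fin (n + 1) → Derivation ℂ M M}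
    (h : Fr (Fin.cons t y) D) (s : M) : jac D (Fin.cons s y) = D 0 s := by
  have k : ∀ i j, D i (y j) = if i = j.succ then 1 else 0 := fun i j => h.dual i j.succ
  rw [jac, Matrix.det_succ_row_zero, Fin.sum_univ_succ, Finset.sum_eq_zero fun j _ => by
    simp [k, (Fin.succ_ne_zero j).symm]]
  have : (Matrix.of fun i j => D i ((Fin.cons s y : Fin (n + 1) → M) j)).submatrix Fin.succ
      (Fin.succAbove 0) = 1 := by
    ext i j
    simp [k, Matrix.one_apply]
  rw [this]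
  simp

theorem kap_cons {t : M} {y : Fin n → M} {D : Fin (n + 1) → Derivation ℂ M M}
    (h : Fr (Fin.cons t y) D) {s : M} (hs : D 0 s ≠ 0) :
    AlgebraicIndependent ℂ (Fin.cons s y : Fin (n + 1) → M) ∧
      kap (Fin.cons s y) = kap (Fin.cons t y) + dv (D 0 s) := by
  rw [← jac_cons h] at hs ⊢
  exact ⟨(jac_ne_iff h _).1 hs, kap_chg h hs⟩

theorem ind_cons' {y : Fin n → M} (hy : AlgebraicIndependent ℂ y) (hC : ∀ i, y i ∈ C)
    (hu : Transcendental C u) : AlgebraicIndependent ℂ (Fin.cons u y : Fin (n + 1) → M) := by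
  have le : Algebra.adjoin ℂ (range y) ≤ C.toSubalgebra := Algebra.adjoin_le (by
    rintro _ ⟨i, rfl⟩; exact hC i)
  have := AlgebraicIndependent.option_iff.2 ⟨hy, (fun a => hu (a.ringHom_of_comp_eq
    (Subalgebra.inclusion le).toRingHom (RingHom.id M) (Subalgebra.inclusion_injective le) rfl) :
      Transcendental (Algebra.adjoin ℂ (range y)) u)⟩
  refine (algebraicIndependent_equiv' (finSuccEquiv n) ?_).2 this
  funext i
  refine Fin.cases ?_ (fun i => ?_) i <;> simp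

theorem kap_pt (hM : FF M (n + 1)) {y : Fin n → M} (hy : AlgebraicIndependent ℂ y)
    (hC : ∀ i, y i ∈ C) (a : Hor C P) (k : P.ord u = 1) : kap (Fin.cons u y) P = 0 := by
  have i1 : AlgebraicIndependent ℂ fun i => (⟨y i, hC i⟩ : C) :=
    AlgebraicIndependent.of_comp C.val hy
  have i2 := i1.map' (f := On.rE P C a) (On.rE P C a).toRingHom.injective
  obtain ⟨D, hD⟩ := Ada.ad (P := P) (π := u) (u := y) ⟨k, fun i => a _ (hC i), by
    refine (congrArg (fun w => AlgebraicIndependent ℂ w) (funext fun i => ?_)).mp i2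
    exact On.rE_apply P a _⟩ hM
  rw [kap_eq hD, jac_self hD.fr]
  simp

theorem kap_reg (hM : FF M n) {y : Fin n → M} (h : ∀ i, y i ∈ P.ring) : 0 ≤ kap y P := by
  obtain ⟨t, D, a⟩ := exists_ad hM P
  rw [kap_eq a]
  exact_mod_cast Pl.ord_nonneg_of_mem _ (det_mem _ fun i j => a.pre i _ (h j))

variable {L : Type} [Field L] [Algebra ℂ L]

/-- the logarithmic inequality with one more coordinate -/
theorem k4 (hL : FF L n) (hM : FF M (n + 1)) {μ : L →+* M}
    (hc : ∀ c, μ (algebraMap ℂ L c) = algebraMap ℂ M c) {Q : Pl L} (l : Lies μ P Q)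
    {y : Fin n → L} {s : M}
    (hi : AlgebraicIndependent ℂ (Fin.cons s fun i => μ (y i) : Fin (n + 1) → M)) :
    P.ord (μ Q.t) * (kap y Q + 1) + P.ord s ≤ kap (Fin.cons s fun i => μ (y i)) P + 1 := by
  obtain ⟨F, hF⟩ := exists_lf hM P
  let e : Fin n ⊕ PUnit.{1} ≃ Fin (n + 1) :=
    (Equiv.optionEquivSumPUnit (Fin n)).symm.trans (finSuccEquiv n).symm
  have ee : dt μ (fun i => F (e i)) y (fun _ => s) = jac F (Fin.cons s fun i => μ (y i)) := by
    rw [dt, jac, ← Matrix.det_submatrix_equiv_self e]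
    congr 1
    ext i j
    rcases j with j | j <;> simp [e]
  have := log_le hL l (d := fun i => F (e i)) (fun i => dr_of _)
    (fun i c => by rw [hc]; exact (F _).map_algebraMap c) (fun i => hF.lg _) (y := y)
    (s := fun _ => s) (ee ▸ hF.ne _ hi)
  rw [ee, ← hF.eq _ hi] at this
  simpa using this

/-- the formula of Hurwitz -/
theorem hur [Algebra L M] [IsScalarTower ℂ L M] (hL : FF L n) (hM : FF M n) {Q : Pl L}
    (l : Lies (algebraMap L M) P Q) {y : Fin n → L} (hy : AlgebraicIndependent ℂ y) :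
    kap (fun i => algebraMap L M (y i)) P + 1 = P.ord (algebraMap L M Q.t) * (kap y Q + 1) := by
  have al : Algebra.IsAlgebraic L M := On.alg_of_trdeg (Pb.ff_fin hM) (by rw [hM.trdeg, hL.trdeg])
  have hc : ∀ c, algebraMap L M (algebraMap ℂ L c) = algebraMap ℂ M c := fun c =>
    (IsScalarTower.algebraMap_apply ℂ L M c).symm
  have e : ∀ z : Fin n → L, Fin.append z (![] : Fin 0 → L) = z := fun z => by
    funext i
    exact Fin.append_left z _ i
  have := rel_eq (m := 0) (y := ![]) (z := y) hL hM (fun c => ⟨c, (hc c).symm⟩) (fun x =>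
    (al.isAlgebraic x).ringHom_of_comp_eq ((algebraMap L M).codRestrict
      (Algebra.adjoin ℂ (range (algebraMap L M))) fun a => Algebra.subset_adjoin ⟨a, rfl⟩)
      (RingHom.id M) (RingHom.injective _) rfl) l ⟨?_, fun a => ?_⟩ (fun j => j.elim0)
    (by rwa [e])
  · rwa [e] at this
  · rintro _ ⟨x, hx, rfl⟩
    exact (l x).1 hx
  · let := l.κ.toAlgebra
    have cs : ∀ c, l.κ (algebraMap ℂ Q.κ c) = algebraMap ℂ P.κ c := fun c => by
      rw [← rd_const, l.isRd _ (Q.con c), hc, rd_const]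
    have : IsScalarTower ℂ Q.κ P.κ := IsScalarTower.of_algebraMap_eq fun c => (cs c).symm
    have a2 : Algebra.IsAlgebraic Q.κ P.κ := On.alg_of_trdeg (Pb.κ_fin (Pb.ff_fin hM) P) (by
      have h1 : Algebra.trdeg ℂ P.κ + 1 = Algebra.trdeg ℂ M := P.dvl
      have h2 : Algebra.trdeg ℂ Q.κ + 1 = Algebra.trdeg ℂ L := Q.dvl
      rw [hM.trdeg, ← hL.trdeg, ← h2, Cardinal.add_one_inj] at h1
      exact h1.le)
    refine (a2.isAlgebraic a).ringHom_of_comp_eq (l.κ.codRestrict
      (Algebra.adjoin ℂ (P.rd '' (algebraMap L M '' Q.ring))) fun b => ?_)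
      (RingHom.id _) (RingHom.injective _) rfl
    obtain ⟨f, hf, rfl⟩ := rd_surj b
    exact Algebra.subset_adjoin ⟨_, ⟨f, hf, rfl⟩, (l.isRd f hf).symm⟩

end Vale.Agent.P287D.Ru
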