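import Vale.Agent.P287D.Gf.St
import Vale.Agent.P287D.Pb.Bas

/-!
# P287D, block RUL: the canonical bundle formula for fibrations in rational curves (statements)
-/

open Set

noncomputable section

namespace Vale.Agent.P287D

section defs

variable {K : Type} [Field K] [Algebra ℂ K]

/-- the geometric generic fibre of `K / L` is a rational curve -/
def Con (L : IntermediateField ℂ K) : Prop :=
  ∃ (K₁ : Type) (_ : Field K₁) (φ : K →+* K₁) (C : Subfield K₁) (t : K₁), (∀ a ∈ L, φ a ∈ C) ∧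
    (∀ c ∈ C, ∃ p : Polynomial L, p ≠ 0 ∧ p.eval₂ (φ.comp (inc L)) c = 0) ∧
    Subfield.closure (range φ ∪ C) = ⊤ ∧ Subfield.closure ((C : Set K₁) ∪ {t}) = ⊤

/-- a pair `Γ` on a conic bundle `K / L` with `Γ + A` linearly equivalent to the pull back of `N`,
`A` semiample, and horizontal boundary coefficients in `[0, 1]` -/
structure Rp (n : ℕ) (L : IntermediateField ℂ K) (Γ A : BD K) (N : BD L) : Prop where
  fk : FF K (n + 1)
  fl : FF L n
  cld : Cld L
  con : Con L
  smp : Smp A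
  prn : Γ + A - pb (inc L) N ∈ Prn K
  le : ∀ P, Hor L P → dsc (n + 1) Γ P ≤ 0
  ge : ∀ P, Hor L P → -1 ≤ dsc (n + 1) Γ P

/-- `Z` is a member of `N - K_L` above the discriminant b-divisor -/
structure Rz (n : ℕ) (L : IntermediateField ℂ K) (Γ : BD K) (N Z : BD L) : Prop where
  prn : Z - (N - cn L n) ∈ Prn L
  ge : ∀ P Q, Lies (inc L) P Q →
    P.ord (inc L Q.t) - (1 + dsc (n + 1) Γ P) ≤ P.ord (inc L Q.t) * Z Q

end defs

/-- **RUL**: the canonical bundle formula -/
def RUL : Prop := ∀ (n : ℕ) (K : Type) [Field K] [Algebra ℂ K] (L : IntermediateField ℂ K)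
  (Γ A : BD K) (N : BD L), Rp n L Γ A N → ∃ Z, Rz n L Γ N Z

/-- **TRI**: a trisection with coefficient `> 1 / 2` forces its branch divisor into `12 Z` -/
def TRI : Prop := ∀ (n : ℕ) (K : Type) [Field K] [Algebra ℂ K] (L : IntermediateField ℂ K)
  (Γ A : BD K) (N : BD L), Rp n L Γ A N → ∀ (σ : Pl K) (ρ : L →+* σ.κ), Hor L σ →
    (∀ a : L, ρ a = σ.rd a) → 3 ≤ Module.finrank (σ.im L) σ.κ → dsc (n + 1) Γ σ < -1 / 2 →
    ∃ Z, Rz n L Γ N Z ∧ ∀ P Q R, Lies (inc L) P Q → Lies ρ R Q → 1 < R.ord (ρ Q.t) →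
      dsc (n + 1) Γ P ≤ 0 → 1 / 12 ≤ Z Q

/-- **DGR**: the horizontal boundary is finite of degree at most two -/
def DGR : Prop := ∀ (n : ℕ) (K : Type) [Field K] [Algebra ℂ K] (L : IntermediateField ℂ K)
  (Γ : BD K) (N : BD L), FF K (n + 1) → FF L n → Cld L → Con L → Γ - pb (inc L) N ∈ Prn K →
    (∀ P, Hor L P → dsc (n + 1) Γ P ≤ 0) →
    {P | Hor L P ∧ dsc (n + 1) Γ P ≠ 0}.Finite ∧ ∀ T : Finset (Pl K), (∀ P ∈ T, Hor L P) →
      ∑ P ∈ T, (Module.finrank (P.im L) P.κ : ℝ) * -dsc (n + 1) Γ P ≤ 2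

/-- **CON**: a nonzero effective horizontal boundary makes the fibre rational -/
def CON : Prop := ∀ (n : ℕ) (K : Type) [Field K] [Algebra ℂ K] (L : IntermediateField ℂ K)
  (Γ : BD K) (N : BD L), FF K (n + 1) → FF L n → Cld L → Γ - pb (inc L) N ∈ Prn K →
    (∀ P, Hor L P → dsc (n + 1) Γ P ≤ 0) → (∃ P, Hor L P ∧ dsc (n + 1) Γ P < 0) → Con L

section easy

variable {K : Type} [Field K] [Algebra ℂ K] {L : IntermediateField ℂ K}

theorem Ruled.con (h : Ruled L) : Con L := by
  obtain ⟨t, -, ht⟩ := h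
  refine ⟨K, inferInstance, RingHom.id K, L.toSubfield, t, fun a ha => ha, fun c hc => ?_, ?_, ?_⟩
  · refine ⟨Polynomial.X - Polynomial.C ⟨c, hc⟩, Polynomial.X_sub_C_ne_zero _, ?_⟩
    simp
  · refine eq_top_iff.2 fun x _ => Subfield.subset_closure (Or.inl ⟨x, rfl⟩)
  · have := congrArg IntermediateField.toSubfield ht
    rw [IntermediateField.adjoin_toSubfield] at this
    have e : range (algebraMap L K) = (L.toSubfield : Set K) := Subtype.range_coe
    rw [← e, this]
    rfl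

theorem GF.conic {K' : Type} [Field K'] [Algebra ℂ K'] {φ : K →+* K'} (h : GF L φ)
    (hr : Ruled (⊥ : IntermediateField ℂ K')) : Con L := by
  obtain ⟨t, -, ht⟩ := hr
  refine ⟨K', inferInstance, φ, (algebraMap ℂ K').fieldRange, t, h.cst, ?_, h.gen, ?_⟩
  · rintro _ ⟨c, rfl⟩
    exact h.alg c
  · have := congrArg IntermediateField.toSubfield ht
    rw [IntermediateField.adjoin_toSubfield] at this
    have e : range (algebraMap (⊥ : IntermediateField ℂ K') K') =
        ((algebraMap ℂ K').fieldRange : Set K') := by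
      rw [show range (algebraMap (⊥ : IntermediateField ℂ K') K') =
        ((⊥ : IntermediateField ℂ K') : Set K') from Subtype.range_coe,
        IntermediateField.coe_bot, RingHom.coe_fieldRange]
    rw [← e, this]
    rfl

end easy

end Vale.Agent.P287D
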