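import Vale.Agent.P287D.Ru.Core

/-!
# P287D, block RUL: the rows `DGR` and `RUL`
-/

set_option linter.unusedSectionVars false

open Set Polynomial
open Vale.Agent.P297Z Vale.Agent.P287D.Cb

noncomputable section

namespace Vale.Agent.P287D

namespace Ru

variable {K : Type} [Field K] [Algebra ℂ K] {L : IntermediateField ℂ K} {n : ℕ}
  {M : Type} [Field M] [Algebra ℂ M] [Algebra K M] [IsScalarTower ℂ K M]

theorem cst_uniq {C : IntermediateField ℂ M} {P : Pl M} (h : Hor C P) {z c d : M} (c1 : c ∈ C)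
    (d1 : d ∈ C) (a : Mx P (z - c)) (b : Mx P (z - d)) : c = d := by
  have := mx_iff.1 (b.sub a)
  rw [sub_sub_sub_cancel_left, hor_ord h (sub_mem c1 d1)] at this
  exact sub_eq_zero.1 (this.resolve_right (lt_irrefl _))

variable [FiniteDimensional K M] [IsGalois K M]
  {y : Fin n → L} {α t g : M} {Γ : BD K} {N : BD L} {t₀ : K} {J : Type} [Fintype J]
  {a b : J → M} {β : J → ℝ} {W : BD M}

namespace Cf

variable (h : Cf n L y α t Γ N t₀ g a b β W) {P : Pl K}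

/-- the points above `P` -/
abbrev Ob (P : Pl K) : Type := {i // Lies (algebraMap K M) (h.pt i) P}

include h

theorem ex_j (i : h.Ob P) : ∃ j : P.κ →+* M, (∀ u, j u ∈ CC L M) ∧
    ∀ f ∈ P.ring, Mx (h.pt i) (algebraMap K M f - j (P.rd f)) := by
  have := h.nt
  obtain ⟨k, hk⟩ := exists_ne i.1
  have hr := h.pt_hor i
  have bj : Function.Bijective (On.rE (h.pt i) _ hr).toRingHom :=
    ⟨RingHom.injective _, fun u => by
      obtain ⟨z, hz, rfl⟩ := rd_surj u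
      obtain ⟨c, c1, m⟩ := (h.co_l hk.symm).res hr (by rw [h.pt_ord hk]; omega) hz
      refine ⟨⟨c, c1⟩, (On.rE_apply _ hr _).trans ?_⟩
      have := (rd_eq_zero m.mem).2 m
      rw [rd_sub hz (hr c c1)] at this
      exact (sub_eq_zero.1 this).symm⟩
  let e := RingEquiv.ofBijective _ bj
  refine ⟨((algebraMap (CC L M) M).comp e.symm.toRingHom).comp i.2.κ,
    fun u => (e.symm (i.2.κ u)).2, fun f hf => ?_⟩
  have f1 := (i.2 f).1 hf
  have c1 := hr _ (e.symm (i.2.κ (P.rd f))).2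
  refine (rd_eq_zero (sub_mem f1 c1)).1 ?_
  rw [rd_sub f1 c1, ← i.2.isRd f hf, ← On.rE_apply _ hr, sub_eq_zero]
  exact (e.apply_symm_apply _).symm

open Classical in
theorem fib (a1 : Hor L P) (a2 : dsc (n + 1) Γ P < 0) : Nonempty (h.Ob P) ∧
    ∃ (j : h.Ob P → P.κ →+* M) (π : (M ≃ₐ[K] M) → h.Ob P ≃ h.Ob P),
      (∀ i (a : L), j i (P.rd a) = algebraMap L M a) ∧
      (∀ τ (i : h.Ob P), cj τ (h.pt i) = h.pt (π τ i)) ∧ (∀ τ i u, τ (j i u) = j (π τ i) u) ∧
      ∀ u, ∃ p : L[X], p.map (algebraMap L M) = ∏ i, (X - C (j i u)) := by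
  choose j j1 j2 using fun i : h.Ob P => h.ex_j i
  have k : ∀ (τ : M ≃ₐ[K] M) (i : h.Ob P), ∃ k : h.Ob P, cj τ (h.pt i) = h.pt k := fun τ i => by
    obtain ⟨k, hk⟩ := h.is_pt (cj_lies τ i.2) a1 a2
    exact ⟨⟨k, hk ▸ cj_lies τ i.2⟩, hk⟩
  choose π hπ using k
  have bj : ∀ τ, Function.Bijective (π τ) := fun τ => Finite.injective_iff_bijective.1
    fun i k e => Subtype.ext (h.pt_inj (cj_inj τ (by rw [hπ, hπ, e])))
  have eq : ∀ τ i u, τ (j i u) = j (π τ i) u := fun τ i u => by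
    obtain ⟨f, hf, rfl⟩ := rd_surj u
    have := (cj_mx τ _ _).2 (j2 i f hf)
    rw [hπ, map_sub, τ.commutes] at this
    exact cst_uniq (h.pt_hor _) (map_CC τ (j1 _ _)) (j1 _ _) this (j2 _ f hf)
  refine ⟨?_, j, fun τ => Equiv.ofBijective _ (bj τ), fun i a => cst_uniq (h.pt_hor i) (j1 _ _)
    (mem_CC_of a) (j2 i a (a1 a a.2)) (by
      rw [show algebraMap K M a - algebraMap L M a = 0 from sub_self _]
      exact mx_zero), hπ, eq, fun u => ?_⟩
  · obtain ⟨P', l⟩ := Pb.up_fin (K' := M) P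
    obtain ⟨i, rfl⟩ := h.is_pt l a1 a2
    exact ⟨⟨i, l⟩⟩
  · refine (mem_lifts _).1 ((lifts_iff_coeff_lifts _).2 fun m => fixed h.cld ?_ fun τ => ?_)
    · have : ∏ i, (X - C (j i u)) ∈ lifts (algebraMap (CC L M) M) := prod_mem fun i _ =>
        (mem_lifts _).2 ⟨X - C ⟨j i u, j1 i u⟩, by simp⟩
      obtain ⟨c, hc⟩ := (lifts_iff_coeff_lifts _).1 this m
      exact hc ▸ c.2
    · have : (∏ i, (X - C (j i u))).map (τ : M →+* M) = ∏ i, (X - C (j i u)) := by
        rw [Polynomial.map_prod]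
        exact Fintype.prod_bijective _ (bj τ) _ _ fun i => by simp [eq]
      conv_rhs => rw [← this, coeff_map]
      rfl

open Classical in
theorem deg_le (a1 : Hor L P) (a2 : dsc (n + 1) Γ P < 0) :
    Module.finrank (P.im L) P.κ ≤ Fintype.card (h.Ob P) := by
  obtain ⟨⟨i⟩, j, π, j1, -, -, j2⟩ := h.fib a1 a2
  by_cases f : FiniteDimensional (P.im L) P.κ
  swap
  · rw [Module.finrank_of_not_finite f]
    exact Nat.zero_le _
  have : CharZero (P.im L) := algebraRat.charZero _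
  obtain ⟨u, hu⟩ := Field.exists_primitive_element (P.im L) P.κ
  obtain ⟨p, hp⟩ := j2 u
  let ρ : L →+* P.im L := (On.rE P L a1).toRingHom.codRestrict (P.im L) fun x =>
    IntermediateField.subset_adjoin _ _ ⟨x, x.2, (On.rE_apply P a1 x).symm⟩
  have mo : (∏ i, (X - C (j i u))).Monic := monic_prod_of_monic _ _ fun _ _ => monic_X_sub_C _
  have p0 : p ≠ 0 := fun e => mo.ne_zero (by rw [← hp, e, Polynomial.map_zero])
  have dg : p.natDegree = Fintype.card (h.Ob P) := by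
    rw [← natDegree_map (algebraMap L M), hp, natDegree_prod_of_monic _ _
      fun _ _ => monic_X_sub_C _]
    simp
  have ev : aeval u (p.map ρ) = 0 := by
    apply (j i).injective
    rw [map_zero, aeval_def, eval₂_map, hom_eval₂, show (j i).comp ((algebraMap _ _).comp ρ) =
      algebraMap L M from RingHom.ext fun x => (congrArg (j i) (On.rE_apply P a1 x)).trans (j1 i x),
      eval₂_eq_eval_map, hp, eval_prod]
    exact Finset.prod_eq_zero (Finset.mem_univ i) (by simp)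
  rw [← IntermediateField.finrank_top', ← hu,
    IntermediateField.adjoin.finrank (Algebra.IsIntegral.isIntegral u), ← dg, ← natDegree_map ρ]
  exact natDegree_le_of_dvd (minpoly.dvd _ _ ev) (Polynomial.map_ne_zero p0)

theorem nn (h1 : ∀ P, Hor L P → dsc (n + 1) Γ P ≤ 0) (i : J) : 0 ≤ β i := by
  obtain ⟨P, l⟩ := h.ex_lo (h.pt i)
  have := h1 P ((hor_up l).1 (h.pt_hor i))
  rw [h.dsc_pt l] at this
  linarith

theorem dgr0 (h1 : ∀ P, Hor L P → dsc (n + 1) Γ P ≤ 0) :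
    {P | Hor L P ∧ dsc (n + 1) Γ P ≠ 0}.Finite ∧ (∀ P, Hor L P → -2 ≤ dsc (n + 1) Γ P) ∧
      ∀ T : Finset (Pl K), (∀ P ∈ T, Hor L P) →
        ∑ P ∈ T, (Module.finrank (P.im L) P.κ : ℝ) * -dsc (n + 1) Γ P ≤ 2 := by
  classical
  choose lo hl using fun i => h.ex_lo (h.pt i)
  refine ⟨(finite_range lo).subset ?_, fun P a1 => ?_, fun T hT => ?_⟩
  · rintro P ⟨a1, a2⟩
    obtain ⟨⟨i⟩, -⟩ := h.fib a1 ((h1 P a1).lt_of_ne a2)
    exact ⟨i, (hl i).uniq i.2⟩
  · rcases (h1 P a1).eq_or_lt with e | e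
    · rw [e]; norm_num
    obtain ⟨⟨i⟩, -⟩ := h.fib a1 e
    have := Finset.single_le_sum (fun i _ => h.nn h1 i) (Finset.mem_univ i.1)
    rw [h.dsc_pt i.2]
    linarith [h.sum]
  · rw [← h.sum]
    refine le_trans (Finset.sum_le_sum (g := fun P => ∑ i with lo i = P, β i) fun P hP => ?_) ?_
    · rcases (h1 P (hT P hP)).eq_or_lt with e | e
      · rw [e, neg_zero, mul_zero]
        exact Finset.sum_nonneg fun i _ => h.nn h1 i
      have k : ∀ i, lo i = P ↔ Lies (algebraMap K M) (h.pt i) P :=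
        fun i => ⟨fun e => e ▸ hl i, (hl i).uniq⟩
      rw [Finset.sum_congr rfl (g := fun _ => -dsc (n + 1) Γ P) fun i hi => by
        rw [h.dsc_pt ((k i).1 (Finset.mem_filter.1 hi).2), neg_neg], Finset.sum_const,
        nsmul_eq_mul]
      refine mul_le_mul_of_nonneg_right (Nat.cast_le.2 ((h.deg_le (hT P hP) e).trans_eq ?_))
        (by linarith)
      rw [Fintype.card_subtype]
      exact congrArg _ (Finset.filter_congr fun i _ => (k i).symm)
    · exact (Finset.sum_fiberwise_eq_sum_filter Finset.univ T lo β).trans_le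
        (Finset.sum_le_sum_of_subset_of_nonneg (Finset.filter_subset _ _)
          fun i _ _ => h.nn h1 i)

end Cf

omit [Algebra ℂ M] in
theorem dgr1 (hK : FF K (n + 1)) (hL : FF L n) (hc : Cld L) (hn : Con L)
    (hp : Γ - pb (inc L) N ∈ Prn K) (h1 : ∀ P, Hor L P → dsc (n + 1) Γ P ≤ 0) :
    {P | Hor L P ∧ dsc (n + 1) Γ P ≠ 0}.Finite ∧ (∀ P, Hor L P → -2 ≤ dsc (n + 1) Γ P) ∧
      ∀ T : Finset (Pl K), (∀ P ∈ T, Hor L P) →
        ∑ P ∈ T, (Module.finrank (P.im L) P.κ : ℝ) * -dsc (n + 1) Γ P ≤ 2 := by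
  obtain ⟨M, _, _, _, _, _, _, y, α, t, t₀, g, J, _, a, b, β, W, h⟩ := exCf hK hL hc hn hp
  exact h.dgr0 h1

theorem dsc_add (Γ G : BD K) (P : Pl K) : dsc n (Γ + G) P = dsc n Γ P - G P := by
  simp only [dsc, Pi.sub_apply, Pi.add_apply]
  ring

/-- the semiample part is moved into the boundary -/
theorem thin {A : BD K} (h : Rp n L Γ A N) : ∃ G : BD K, 0 ≤ G ∧ Rp n L (Γ + G) 0 N ∧
    ∀ P, Hor L P → dsc (n + 1) Γ P < 0 → G P = 0 := by
  have pr : ∀ G, Rep A G → Γ + G - pb (inc L) N ∈ Prn K := fun G r => by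
    rw [show Γ + G - pb (inc L) N = Γ + A - pb (inc L) N + (G - A) by abel]
    exact add_mem h.prn r.2
  have le : ∀ G : BD K, 0 ≤ G → ∀ P, Hor L P → dsc (n + 1) (Γ + G) P ≤ 0 := fun G r P a => by
    rw [dsc_add]
    linarith [h.le P a, show 0 ≤ G P from r P]
  have k := fun G r => dgr1 h.fk h.fl h.cld h.con (pr G r) (le G r.1)
  obtain ⟨G0, r0, -⟩ := h.smp.exists_rep finite_empty
  obtain ⟨G1, r1, z1⟩ := h.smp.exists_rep (k G0 r0).1
  obtain ⟨G2, r2, z2⟩ := h.smp.exists_rep (k G1 r1).1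
  have ne : ∀ G : BD K, 0 ≤ G → ∀ P, dsc (n + 1) Γ P < 0 → dsc (n + 1) (Γ + G) P ≠ 0 :=
    fun G r P a => by
      rw [dsc_add]
      linarith [show 0 ≤ G P from r P]
  have r : Rep A ((1 / 2 : ℝ) • (G1 + G2)) := by
    have := (r1.add r2).smul (c := 1 / 2) (by norm_num)
    rwa [← two_smul ℝ, smul_smul, show (1 / 2 : ℝ) * 2 = 1 by norm_num, one_smul] at this
  have z : ∀ P, Hor L P → dsc (n + 1) Γ P < 0 → ((1 / 2 : ℝ) • (G1 + G2)) P = 0 := fun P a b => by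
    simp [z1 P ⟨a, ne _ r0.1 P b⟩, z2 P ⟨a, ne _ r1.1 P b⟩]
  refine ⟨_, r.1, ⟨h.fk, h.fl, h.cld, h.con, Smp.zero, by rw [add_zero]; exact pr _ r, le _ r.1,
    fun P a => ?_⟩, z⟩
  rw [dsc_add]
  rcases (h.le P a).eq_or_lt with e | e
  · have b1 := (k G1 r1).2.1 P a
    have b2 := (k G2 r2).2.1 P a
    rw [dsc_add, e] at b1 b2
    simp only [e, Pi.smul_apply, Pi.add_apply, smul_eq_mul]
    by_cases e1 : G1 P = 0
    · linarith
    · have := z2 P ⟨a, by rw [dsc_add, e]; simpa using e1⟩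
      linarith
  · rw [z P a e, sub_zero]
    exact h.ge P a

theorem rz_mono {G : BD K} {Z : BD L} (hG : 0 ≤ G) (h : Rz n L (Γ + G) N Z) : Rz n L Γ N Z :=
  ⟨h.prn, fun P Q l => by
    have := h.ge P Q l
    rw [dsc_add] at this
    linarith [show 0 ≤ G P from hG P]⟩

end Ru

theorem Ru.dgr : DGR := fun _ _ _ _ _ _ _ a b c d e f =>
  ⟨(Ru.dgr1 a b c d e f).1, (Ru.dgr1 a b c d e f).2.2⟩

theorem rul : RUL := fun _ _ _ _ _ _ _ _ h => by
  obtain ⟨G, g0, r, -⟩ := Ru.thin h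
  obtain ⟨M, _, _, _, _, _, _, y, α, t, t₀, g, J, _, a, b, β, W, c⟩ :=
    Ru.exCf r.fk r.fl r.cld r.con (by simpa using r.prn)
  obtain ⟨-, -, Z, hZ⟩ := c.rul0 r.le r.ge
  exact ⟨Z, Ru.rz_mono g0 hZ⟩

end Vale.Agent.P287D
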