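import Vale.Agent.P287D.Ru.St
import Vale.Agent.P287D.Gf.Vp
import Vale.Agent.P287D.Gf.Res
import Vale.Agent.P287D.Gf.Des
import Vale.Agent.P287D.Cv.Rr

/-!
# P287D, block RUL: the rows DGR and CON
-/

open Set IntermediateField

namespace Vale.Agent.P287D

variable {K K' : Type} [Field K] [Algebra ℂ K] [Field K'] [Algebra ℂ K']
  {L : IntermediateField ℂ K} {φ : K →+* K'} {n : ℕ} {Γ : BD K} {N : BD L}

/-- every geometric generic fibre of a conic is rational -/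
theorem Con.g0 (c : Con L) (h : Ext L φ) (hK : FF K' 1) : pg K' 1 = 0 := by
  obtain ⟨M, _, χ, C, t, -, h2, h3, h4⟩ := c
  let ι := algebraMap K' (AlgebraicClosure K')
  let := χ.toAlgebra
  let := (ι.comp φ).toAlgebra
  have : Algebra.IsAlgebraic K M := ⟨fun x => mem_algebraicClosure_iff.1
    ((Subfield.closure_le (t := (algebraicClosure K M).toSubfield)).2 (by
      rintro _ (⟨y, rfl⟩ | hc)
      · exact (algebraicClosure K M).algebraMap_mem y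
      obtain ⟨p, p0, e⟩ := h2 _ hc
      exact mem_algebraicClosure_iff.2 ⟨p.map (inc L), Polynomial.map_ne_zero p0,
        (Polynomial.eval₂_map _ _ _).trans e⟩) (h3.ge trivial))⟩
  let ψ : M →ₐ[K] AlgebraicClosure K' := IsAlgClosed.lift
  have a : ∀ c ∈ C, ∃ z, ι (algebraMap ℂ K' z) = ψ c := fun c hc => by
    obtain ⟨p, p0, e⟩ := h2 _ hc
    refine Gf.mem_range ⟨p.map h.j, Polynomial.map_ne_zero p0, ?_⟩
    have := congrArg ψ.toRingHom e
    rw [Polynomial.hom_eval₂, map_zero] at this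
    rw [Polynomial.aeval_def, Polynomial.eval₂_map, ← this]
    congr 1
    exact RingHom.ext fun x => (congrArg ι (h.j_spec x)).trans (ψ.commutes x).symm
  obtain ⟨u, hu⟩ : ψ t ∈ ι.fieldRange := (Subfield.closure_le
    (t := ι.fieldRange.comap ψ.toRingHom)).2 (by
      rintro _ (⟨y, rfl⟩ | hc)
      exacts [⟨φ y, (ψ.commutes y).symm⟩, ⟨_, (a _ hc).choose_spec⟩]) (h3.ge trivial)
  have e : ℂ⟮u⟯ = ⊤ := eq_top_iff.2 fun x _ => (Subfield.closure_le (t := ℂ⟮u⟯.toSubfield)).2 (by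
    rintro _ (⟨y, rfl⟩ | ⟨z, rfl⟩)
    · obtain ⟨w, b, d⟩ : ψ (χ y) ∈ ℂ⟮u⟯.toSubfield.map ι := (Subfield.closure_le
        (t := (ℂ⟮u⟯.toSubfield.map ι).comap ψ.toRingHom)).2 (by
          rintro _ (hc | rfl)
          exacts [⟨_, ℂ⟮u⟯.algebraMap_mem _, (a _ hc).choose_spec⟩,
            ⟨u, mem_adjoin_simple_self ℂ u, hu⟩]) (h4.ge trivial)
      exact ι.injective (d.trans (ψ.commutes y)) ▸ b
    · exact ℂ⟮u⟯.algebraMap_mem z) (h.gen.ge trivial)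
  refine Cv.g0_of_coord hK (fun z k => ?_) e
  obtain ⟨P⟩ := Cv.ne_pl hK
  refine P297Z.Pl.ring_ne_top P.toPlace (eq_top_iff.2 fun x _ => ?_)
  obtain ⟨w, rfl⟩ : x ∈ (⊥ : IntermediateField ℂ K') :=
    (adjoin_simple_eq_bot_iff.2 (k ▸ ⟨z, rfl⟩)).le (e.ge trivial)
  exact P.con w

/-- the degree of the horizontal boundary -/
theorem GFd.deg_dsc (h : GFd n 1 L φ) (hp : Γ - pb (inc L) N ∈ Prn K) :
    pb φ (dsc (n + 1) Γ) ∈ Car K' ∧ I1 (pb φ (dsc (n + 1) Γ)) = 2 * pg K' 1 - 2 := by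
  obtain ⟨f, -, e⟩ := g4 _ _ _ _ _ _ h
  have a := add_mem (Cv.dv_prn f) (h.ok.prn hp)
  rw [pb_sub, (h.pb_eq_zero (β := pb (inc L) N)).2 fun Q k => Trv.pb (fun x : L => k x x.2) N,
    sub_zero] at a
  rw [dsc, pb_sub, eq_sub_of_add_eq e.symm, sub_sub]
  have b := Cv.smp_car (Cv.prn_smp a)
  exact ⟨sub_mem (Cv.cn_car h.ff) b, by
    rw [Cv.I1_sub h.ff (Cv.cn_car h.ff) b, Cv.I1_prn h.ff a, Cv.I1_cn h.ff, sub_zero]⟩

theorem GFd.nn_dsc (h : GFd n 1 L φ) (k : ∀ P, Hor L P → dsc (n + 1) Γ P ≤ 0) :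
    0 ≤ -pb φ (dsc (n + 1) Γ) := fun P =>
  let ⟨Q, a⟩ := h.toGF.below h.ff P
  neg_nonneg.2 ((h.toGF.pb_eq a _).trans_le (k Q (h.toExt.hor a)))

/-- the number of the points above a horizontal place is its degree -/
theorem dg_curve (hK : FF K (n + 1)) (hL : FF L n) {Q : Pl K} (hQ : Hor L Q) :
    Q.dg L = Module.finrank (Q.im L) Q.κ := by
  have e := trdeg_add_eq ℂ (Q.cf L) (A := Q.κ)
  rw [(Gf.ff_cf hQ hL (Gm.ff_κ Q hK)).trdeg, (Gm.ff_κ Q hK).trdeg] at e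
  have a := trdeg_eq_zero_iff.1 ((Cardinal.add_nat_inj n).1
    (((add_comm _ _).trans e).trans (zero_add _).symm))
  rw [Gf.dg_eq, show algebraicClosure (Q.im L) Q.κ = ⊤ from
    eq_top_iff.2 fun x _ => Gf.cld_cl _ x (a.1 x), finrank_top']

/-- **CON** -/
theorem con : CON := fun n K _ _ L Γ N hK hL c hp k ⟨Q, hQ, d⟩ => by
  obtain ⟨K', _, _, φ, g⟩ := g1 K L c ⟨n, hL⟩
  have h : GFd n 1 L φ := ⟨g, hK, hL⟩
  obtain ⟨P, a⟩ := g.above hL hQ
  have b := Cv.le_I1 h.ff (neg_mem (h.deg_dsc hp).1) (h.nn_dsc k) P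
  rw [Cv.I1_neg, (h.deg_dsc hp).2, ← Cv.I1_cn h.ff, Pi.neg_apply, g.pb_eq a] at b
  exact g.conic ((Cv.g0_iff h.ff).1 (Cv.g0_of_neg h.ff (by linarith)))

/-- **DGR** -/
theorem dgr : DGR := fun n K _ _ L Γ N hK hL c o hp k => by
  classical
  obtain ⟨K', _, _, φ, g⟩ := g1 K L c ⟨n, hL⟩
  have h : GFd n 1 L φ := ⟨g, hK, hL⟩
  obtain ⟨a1, a2⟩ := h.deg_dsc hp
  have f := (Cv.car_iff h.ff).1 (neg_mem a1)
  choose b hb using g.below h.ff
  have v : ∀ P, (-pb φ (dsc (n + 1) Γ)) P = -dsc (n + 1) Γ (b P) := fun P =>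
    congrArg Neg.neg (g.pb_eq (hb P) _)
  have l : ∀ Q, b ⁻¹' {Q} = {P | Lies φ P Q} := fun Q =>
    Set.ext fun P => ⟨fun e => (e : b P = Q) ▸ hb P, (hb P).uniq⟩
  refine ⟨(f.image b).subset fun Q ⟨hQ, d⟩ => ?_, fun T hT => ?_⟩
  · obtain ⟨P, a⟩ := g.above hL hQ
    obtain rfl := (hb P).uniq a
    exact ⟨P, (v P).trans_ne (neg_ne_zero.2 d), rfl⟩
  have u := T.finite_toSet.preimage' fun Q e => l Q ▸ (g.count hL hK (hT Q e)).1
  have w := Finset.sum_le_sum_of_subset_of_nonneg (f := -pb φ (dsc (n + 1) Γ))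
    (Finset.subset_union_left (s₁ := u.toFinset) (s₂ := f.toFinset)) fun P _ _ => h.nn_dsc k P
  rw [← finsum_eq_sum_of_support_subset _ (s := u.toFinset ∪ f.toFinset) (by simp), ← Cv.I1_eq,
    Cv.I1_neg, a2, o.g0 g.toExt h.ff,
    ← Finset.sum_fiberwise_of_maps_to (s := u.toFinset) (g := b) (t := T) (by simp)] at w
  refine (Finset.sum_congr rfl fun Q e => ?_).trans_le (w.trans_eq (by norm_num))
  rw [Finset.sum_congr rfl fun P d => (v P).trans (by rw [(Finset.mem_filter.1 d).2]),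
    Finset.sum_const, nsmul_eq_mul, ← dg_curve hK hL (hT Q e), ← (g.count hL hK (hT Q e)).2, ← l,
    ← Set.ncard_coe_finset]
  congr 3
  ext P
  simpa using fun d => d ▸ e

end Vale.Agent.P287D
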