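import Vale.Agent.P287D.Ru.Ext
import Vale.Agent.P287D.Pb.Up
import Vale.Agent.P287D.Iso.Bas
import Vale.Agent.P287D.Va.Cone

/-!
# P287D, block RUL: the boundary over the splitting field
-/

set_option linter.unusedSectionVars false

open Set Polynomial
open Vale.Agent.P285N.Brep (jac Fr)
open Vale.Agent.P297Z Vale.Agent.P287D.Cb

noncomputable section

namespace Vale.Agent.P287D.Ru

variable {K : Type} [Field K] [Algebra ℂ K] {L : IntermediateField ℂ K} {n : ℕ}

theorem trdeg_one (hK : FF K (n + 1)) (hL : Algebra.trdeg ℂ L = n) : Algebra.trdeg L K = 1 := by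
  have := trdeg_add_eq ℂ L (A := K)
  rw [hL, hK.trdeg, Nat.cast_succ] at this
  exact Cardinal.eq_of_add_eq_add_left this Cardinal.natCast_lt_aleph0

variable {M : Type} [Field M] [Algebra ℂ M] [Algebra K M] [IsScalarTower ℂ K M]

/-- the splitting field -/
structure Bs (n : ℕ) (L : IntermediateField ℂ K) (y : Fin n → L) (α t : M) : Prop where
  fk : FF K (n + 1)
  fl : FF L n
  cld : Cld L
  yi : AlgebraicIndependent ℂ y
  alg : IsAlgebraic L α
  gen : Subfield.closure (range (algebraMap K M) ∪ {α}) = ⊤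
  co : Co (CC L M) t

/-- the form `ds ∧ dy` -/
def kp (y : Fin n → L) (s : M) : BD M := kap (Fin.cons s fun i => algebraMap L M (y i))

/-- the divisors of the constants -/
def PC (L : IntermediateField ℂ K) (M : Type) [Field M] [Algebra ℂ M] [Algebra K M]
    [IsScalarTower ℂ K M] : Submodule ℝ (BD M) := Submodule.span ℝ (dv '' (CC L M : Set M))

/-- the boundary is supported on rational points -/
structure Cf (n : ℕ) (L : IntermediateField ℂ K) (y : Fin n → L) (α t : M) (Γ : BD K) (N : BD L)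
    (t₀ : K) (g : M) {J : Type} [Fintype J] (a b : J → M) (β : J → ℝ) (W : BD M) : Prop
    extends Bs n L y α t where
  ma : ∀ i, a i ∈ CC L M
  mb : ∀ i, b i ∈ CC L M
  nt : Nontrivial J
  det : ∀ i j, i ≠ j → a i * b j - a j * b i ≠ 0
  sum : ∑ i, β i = 2
  pc : W ∈ PC L M
  eq : ∀ P' P, Lies (algebraMap K M) P' P →
    P'.ord (algebraMap K M P.t) * (1 + dsc (n + 1) Γ P) = kp y t P' + 1 -
      ∑ i, β i * P'.ord (a i * t + b i) + W P' - P'.ord (algebraMap K M P.t) * pb (inc L) N P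
  g0 : g ≠ 0
  int : ∀ P' P, Lies (algebraMap K M) P' P →
    ∃ k : ℤ, P'.ord (algebraMap K M P.t) * k = kp y t P' + 1 + P'.ord g
  der : ∀ d : M → M, De d → (∀ c ∈ CC L M, d c = 0) → d t = 1 → d (algebraMap K M t₀) = g

theorem lin (c : ℂ) : algebraMap L M (algebraMap ℂ L c) = algebraMap ℂ M c :=
  (IsScalarTower.algebraMap_apply ℂ L M c).symm

theorem mem_CC_of (a : L) : algebraMap L M a ∈ CC L M := mem_CC.2 (isAlgebraic_algebraMap a)

theorem hor_up {P' : Pl M} {P : Pl K} (l : Lies (algebraMap K M) P' P) :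
    Hor (CC L M) P' ↔ Hor L P := by
  refine ⟨fun h a ha => (l a).2 (h _ (mem_CC_of ⟨a, ha⟩)), fun h x hx => ?_⟩
  obtain ⟨p, hp, hpx⟩ := (mem_CC.1 hx).isIntegral
  let ρ : L →+* P'.ring := (algebraMap L M).codRestrict P'.ring fun a => (l a).1 (h a a.2)
  have hint : IsIntegral P'.ring x := ⟨p.map ρ, hp.map _, by rw [eval₂_map]; exact hpx⟩
  obtain ⟨z, rfl⟩ := IsIntegrallyClosed.isIntegral_iff.1 hint
  exact z.2

variable [FiniteDimensional K M] {y : Fin n → L} {α t : M}

theorem ff_up (hK : FF K n) : FF M n := by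
  have := hK.ess
  have : Algebra.EssFiniteType ℂ M := Algebra.EssFiniteType.comp ℂ K M
  refine Gm.ff_of_ess ?_
  rw [← trdeg_add_eq ℂ K (A := M), hK.trdeg, trdeg_eq_zero_iff.2 inferInstance, add_zero]

namespace Bs

variable (h : Bs n L y α t)
include h

theorem fm : FF M (n + 1) := ff_up h.fk

theorem tr1 : Algebra.trdeg (CC L M) M = 1 := by
  refine trdeg_one h.fm ?_
  change Algebra.trdeg ℂ (algebraicClosure L M) = n
  rw [← trdeg_add_eq ℂ L (A := algebraicClosure L M), h.fl.trdeg,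
    trdeg_eq_zero_iff.2 inferInstance, add_zero]

theorem yy : AlgebraicIndependent ℂ fun i => algebraMap L M (y i) :=
  h.yi.map' (f := IsScalarTower.toAlgHom ℂ L M) (algebraMap L M).injective

theorem exD : ∃ d : M → M, De d ∧ (∀ c ∈ CC L M, d c = 0) ∧ d t = 1 ∧ ∀ s, (d s ≠ 0 ↔
    AlgebraicIndependent ℂ (Fin.cons s fun i => algebraMap L M (y i) : Fin (n + 1) → M)) ∧
      (d s ≠ 0 → kp y s = kp y t + dv (d s)) := by
  obtain ⟨D, hD⟩ := fr_of h.fm (ind_cons' h.yy (fun i => mem_CC_of _) (h.co.trans h.tr1))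
  have : CharZero M := charZero_of_injective_algebraMap (algebraMap ℂ M).injective
  have a1 := alg_of_fin (h.fl.fin h.yi)
  have k : ∀ a : L, D 0 (algebraMap L M a) = 0 := fun a =>
    ((dr_of (D 0)).comp (algebraMap L M)).kill (fun c => by
      rw [lin]; exact (D 0).map_algebraMap c) (s := range y) (by
        rintro _ ⟨i, rfl⟩
        simpa [(Fin.succ_ne_zero i).symm] using hD.dual 0 i.succ) (a1.isAlgebraic a)
  refine ⟨D 0, dr_of _, fun c hc => (dr_of (D 0)).alg ((mem_CC.1 hc).ringHom_of_comp_eq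
    ((algebraMap L M).codRestrict (dr_of (D 0)).ker k) (RingHom.id M) (RingHom.injective _) rfl),
    by simpa using hD.dual 0 0, fun s => ⟨?_, fun k => (kap_cons hD k).2⟩⟩
  rw [← jac_cons hD, jac_ne_iff hD]

theorem e_one {P' : Pl M} {P : Pl K} (l : Lies (algebraMap K M) P' P) (a : Hor L P) :
    P'.ord (algebraMap K M P.t) = 1 := by
  have : CharZero L := algebraRat.charZero _
  have a' := (hor_up l).2 a
  let ρ : L →+* P.ring := (algebraMap L K).codRestrict P.ring fun x => a x x.2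
  have e : ∀ q : L[X], (q.map ρ).eval₂ ((algebraMap K M).comp P.ring.subtype) α = aeval α q :=
    fun q => by rw [eval₂_map]; rfl
  have s : IsSeparable L α := (minpoly.irreducible h.alg.isIntegral).separable
  have d0 : aeval α (derivative (minpoly L α)) ≠ 0 :=
    s.aeval_derivative_ne_zero (minpoly.aeval _ _)
  have dc : aeval α (derivative (minpoly L α)) ∈ CC L M := by
    have := aeval_algebraMap_apply M (⟨α, mem_algebraicClosure_iff.2 h.alg⟩ : algebraicClosure L M)
      (derivative (minpoly L α))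
    exact this.symm ▸ Subtype.prop (p := fun z => z ∈ algebraicClosure L M) _
  have := unr l (a' α (mem_CC.2 h.alg)) ((minpoly L α).map ρ) (by rw [e, minpoly.aeval]) (by
    rw [derivative_map, e, mx_iff, hor_ord a' dc]
    simp [d0]) (z := P'.t) (h.gen.ge (Subfield.mem_top _))
  rw [P'.ord_t] at this
  exact Int.eq_one_of_dvd_one l.e_pos.le this

end Bs

omit [FiniteDimensional K M] in
theorem exCf (hK : FF K (n + 1)) (hL : FF L n) (hc : Cld L) (hn : Con L) {Γ : BD K} {N : BD L}
    (hp : Γ - pb (inc L) N ∈ Prn K) : ∃ (M : Type) (_ : Field M) (_ : Algebra ℂ M)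
      (_ : Algebra K M) (_ : IsScalarTower ℂ K M), FiniteDimensional K M ∧ IsGalois K M ∧
      ∃ (y : Fin n → L) (α t : M) (t₀ : K) (g : M) (J : Type) (_ : Fintype J) (a b : J → M)
        (β : J → ℝ) (W : BD M), Cf n L y α t Γ N t₀ g a b β W := by
  classical
  obtain ⟨y, hy, -⟩ := id hL
  obtain ⟨t₀, ht₀, -⟩ := On.exists_x hK (trdeg_one hK hL.trdeg)
  have i0 := ind_cons' (C := L) (hy.map' (f := L.val) L.val.injective) (fun i => (y i).2) ht₀
  obtain ⟨h₀, h0, ec⟩ := cn_kap hK i0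
  obtain ⟨T, r, hT, eT⟩ := mem_Prn.1 hp
  obtain ⟨M, _, _, _, _, f1, g1, α, t, g, ι, _, x, d⟩ := exM hK.ess hn (insert h₀ T) t₀
  have bs : Bs n L y α t := ⟨hK, hL, hc, hy, d.alg, d.gen, d.co⟩
  obtain ⟨D, d1, d2, d3, d4⟩ := bs.exD
  have ey : (fun i => algebraMap K M ((Fin.cons t₀ (L.val ∘ y) : Fin (n + 1) → K) i)) =
      Fin.cons (algebraMap K M t₀) fun i => algebraMap L M (y i) := by
    funext i
    refine Fin.cases rfl (fun i => rfl) i
  have g0 : D (algebraMap K M t₀) ≠ 0 := (d4 _).1.2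
    (ey ▸ i0.map' (f := IsScalarTower.toAlgHom ℂ K M) (algebraMap K M).injective)
  have k1 := (d4 _).2 g0
  rw [d.der D d1 d2 d3] at g0 k1
  have k2 : ∀ P' P, Lies (algebraMap K M) P' P → P'.ord (algebraMap K M P.t) *
      (kap (Fin.cons t₀ (L.val ∘ y)) P + 1) = kp y t P' + 1 + P'.ord g := fun P' P l => by
    have := hur hK bs.fm l i0
    rw [ey] at this
    have k3 := congrFun k1 P'
    rw [Pi.add_apply, dv_apply] at k3
    unfold kp at k3 ⊢
    linarith
  have tx : ∀ i, t - x i ≠ 0 := fun i e => bs.co.trans bs.tr1 (by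
    rw [sub_eq_zero.1 e]
    exact isAlgebraic_algebraMap (⟨x i, d.mem i⟩ : CC L M))
  have sp : ∀ z, z ≠ 0 → Spl (CC L M) x t z →
      dv z ∈ PC L M ⊔ Submodule.span ℝ (range fun i => dv (t - x i)) := by
    rintro _ z0 ⟨c, c1, m, rfl⟩
    rw [dv_mul (left_ne_zero_of_mul z0) (right_ne_zero_of_mul z0),
      dv_prod _ fun i _ => zpow_ne_zero _ (tx i)]
    refine Submodule.add_mem_sup (Submodule.subset_span ⟨c, c1, rfl⟩) (sum_mem fun i _ => ?_)
    rw [dv_zpow]
    exact Submodule.smul_mem _ _ (Submodule.subset_span ⟨i, rfl⟩)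
  obtain ⟨W, hW, V, hV, e⟩ := Submodule.mem_sup.1 (sub_mem (add_mem (sp g g0 d.spg)
    (sp _ ((_root_.map_ne_zero _).2 h0) (d.spl h₀ (by simp))))
    (sum_mem fun f (hf : f ∈ T) => Submodule.smul_mem _ (r f)
      (sp _ ((_root_.map_ne_zero _).2 (hT f hf)) (d.spl f (by simp [hf])))))
  obtain ⟨β, rfl⟩ := (Submodule.mem_span_range_iff_exists_fun ℝ).1 hV
  have := d.ne
  refine ⟨M, _, _, _, inferInstance, f1, g1, y, α, t, t₀, g, Option ι, _,
    fun o => o.elim 0 fun _ => 1, fun o => o.elim 1 fun i => -x i,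
    fun o => o.elim (2 + ∑ i, β i) fun i => -β i, W, bs, ?_, ?_, inferInstance, ?_, ?_, hW,
    fun P' P l => ?_, g0, fun P' P l => ?_, d.der⟩
  · rintro (_ | i)
    exacts [zero_mem _, one_mem _]
  · rintro (_ | i)
    exacts [one_mem _, neg_mem (d.mem i)]
  · rintro (_ | i) (_ | j) k
    · exact (k rfl).elim
    · simp
    · simp
    · have : x i - x j ≠ 0 := sub_ne_zero.2 fun e => k (congrArg some (d.inj e))
      intro e
      apply this
      simp only [Option.elim_some] at e
      linear_combination e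
  · simp [Fintype.sum_option]
  · have e1 := congrFun e P'
    have e2 := congrFun eT P
    have e3 := congrFun ec P
    have e4 := k2 P' P l
    simp only [Pi.add_apply, Pi.sub_apply, Finset.sum_apply, Pi.smul_apply, smul_eq_mul, dv_apply,
      l.ord h₀, Int.cast_mul] at e1 e2 e3
    have e5 : ∑ f ∈ T, r f * (P'.ord (algebraMap K M f) : ℝ) =
        P'.ord (algebraMap K M P.t) * ∑ f ∈ T, r f * (P.ord f : ℝ) := by
      rw [Finset.mul_sum]
      exact Finset.sum_congr rfl fun f _ => by rw [l.ord f]; push_cast; ring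
    simp only [Fintype.sum_option, Option.elim_none, Option.elim_some, zero_mul, zero_add, one_mul,
      Pl.ord_one, Int.cast_zero, mul_zero, ← sub_eq_add_neg, neg_mul, Finset.sum_neg_distrib, dsc,
      Pi.sub_apply]
    rw [e5, ← e2] at e1
    rw [e3]
    linear_combination e4 - e1
  · obtain ⟨k, hk⟩ := kap_int (Fin.cons t₀ (L.val ∘ y) : Fin (n + 1) → K) P
    refine ⟨k + 1, ?_⟩
    rw [← k2 P' P l, hk]
    push_cast
    rfl

end Vale.Agent.P287D.Ru
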