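import Vale.Agent.P287D.Ru.Cf

/-!
# P287D, block RUL: the logarithmic forms, the points, the norm
-/

set_option linter.unusedSectionVars false

open Set Polynomial
open Vale.Agent.P297Z Vale.Agent.P287D.Cb

noncomputable section

namespace Vale.Agent.P287D.Ru

variable {K : Type} [Field K] [Algebra ℂ K] {L : IntermediateField ℂ K} {n : ℕ}
  {M : Type} [Field M] [Algebra ℂ M] [Algebra K M] [IsScalarTower ℂ K M]

/-- the log discrepancy of `dlog (l i / l j) ∧ dy` -/
def dd {J : Type} (y : Fin n → L) (t : M) (a b : J → M) (i j : J) (P : Pl M) : ℝ :=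
  kp y t P + 1 + P.ord (a i * b j - a j * b i) - P.ord (a i * t + b i) - P.ord (a j * t + b j)

/-! ### the Galois group -/

theorem semi (τ : M ≃ₐ[K] M) : Semi (τ : M →+* M) := Semi.of_alg (τ.restrictScalars ℂ)

/-- the conjugate place -/
def cj (τ : M ≃ₐ[K] M) (P : Pl M) : Pl M := (semi τ).pl P

theorem cj_ord (τ : M ≃ₐ[K] M) (P : Pl M) (z : M) : (cj τ P).ord (τ z) = P.ord z :=
  (semi τ).ord_pl P z

theorem cj_mem (τ : M ≃ₐ[K] M) (P : Pl M) (z : M) : τ z ∈ (cj τ P).ring ↔ z ∈ P.ring :=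
  (semi τ).mem_pl

theorem cj_mx (τ : M ≃ₐ[K] M) (P : Pl M) (z : M) : Mx (cj τ P) (τ z) ↔ Mx P z :=
  mx_lies ((semi τ).lies P)

theorem cj_inj (τ : M ≃ₐ[K] M) : Function.Injective (cj τ) := (semi τ).pl.injective

theorem cj_lies (τ : M ≃ₐ[K] M) {P' : Pl M} {P : Pl K} (l : Lies (algebraMap K M) P' P) :
    Lies (algebraMap K M) (cj τ P') P := fun f => by
  rw [l f, ← cj_mem τ, τ.commutes]

theorem cj_symm (τ : M ≃ₐ[K] M) (P : Pl M) (z : M) : (cj τ.symm P).ord z = P.ord (τ z) := by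
  rw [← cj_ord τ.symm P, τ.symm_apply_apply]

theorem map_CC (τ : M ≃ₐ[K] M) {c : M} (h : c ∈ CC L M) : τ c ∈ CC L M :=
  mem_CC.2 ((mem_CC.1 h).algHom (τ.restrictScalars L).toAlgHom)

variable [FiniteDimensional K M] [IsGalois K M]

theorem fixed (hc : Cld L) {c : M} (h : c ∈ CC L M) (k : ∀ τ : M ≃ₐ[K] M, τ c = c) :
    ∃ a : L, algebraMap L M a = c := by
  obtain ⟨f, rfl⟩ := (IsGalois.mem_range_algebraMap_iff_fixed (F := K) c).2 k
  exact ⟨⟨f, hc f ((isAlgebraic_algebraMap_iff (algebraMap K M).injective).1 (mem_CC.1 h))⟩, rfl⟩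

theorem norm_pc (hc : Cld L) {W : BD M} (hW : W ∈ PC L M) : ∃ Z ∈ Prn L, ∀ P Q,
    Lies (algebraMap L M) P Q →
      P.ord (algebraMap L M Q.t) * Z Q = ∑ τ : M ≃ₐ[K] M, W (cj τ.symm P) := by
  induction hW using Submodule.span_induction with
  | mem x hx =>
    obtain ⟨c, c1, rfl⟩ := hx
    by_cases c0 : c = 0
    · exact ⟨0, zero_mem _, fun P Q _ => by simp [c0]⟩
    obtain ⟨a, ha⟩ := fixed hc (c := ∏ τ : M ≃ₐ[K] M, τ c) (prod_mem fun τ _ => map_CC τ c1)
      fun σ => by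
        rw [map_prod]
        exact Fintype.prod_equiv (Equiv.mulLeft σ) _ _ fun τ => rfl
    refine ⟨dv a, dv_mem_Prn a, fun P Q l => ?_⟩
    have := l.ord a
    rw [ha, P.ord_prod _ fun τ _ => (_root_.map_ne_zero τ).2 c0] at this
    simp only [dv_apply, cj_symm]
    exact_mod_cast this.symm
  | zero => exact ⟨0, zero_mem _, fun P Q _ => by simp⟩
  | add x y _ _ hx hy =>
    obtain ⟨Z, z1, z2⟩ := hx
    obtain ⟨Z', z1', z2'⟩ := hy
    exact ⟨Z + Z', add_mem z1 z1', fun P Q l => by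
      simp only [Pi.add_apply, mul_add, Finset.sum_add_distrib, z2 P Q l, z2' P Q l]⟩
  | smul r x _ hx =>
    obtain ⟨Z, z1, z2⟩ := hx
    exact ⟨r • Z, Submodule.smul_mem _ _ z1, fun P Q l => by
      simp only [Pi.smul_apply, smul_eq_mul, ← Finset.mul_sum, ← z2 P Q l]; ring⟩

theorem lies_tw {P' : Pl M} {P : Pl K} {Q : Pl L} (l : Lies (algebraMap K M) P' P)
    (k : Lies (inc L) P Q) : Lies (algebraMap L M) P' Q := l.comp k

theorem e_tw {P' : Pl M} {P : Pl K} (Q : Pl L) (l : Lies (algebraMap K M) P' P) :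
    P'.ord (algebraMap L M Q.t) = P'.ord (algebraMap K M P.t) * P.ord (inc L Q.t) := l.ord _

theorem avg (hc : Cld L) {W : BD M} (hW : W ∈ PC L M) : ∃ Z ∈ Prn L, ∀ (P : Pl K) Q (r : ℝ),
    Lies (inc L) P Q → (∀ P', Lies (algebraMap K M) P' P →
      P'.ord (algebraMap K M P.t) * r ≤ W P') → r ≤ P.ord (inc L Q.t) * Z Q := by
  obtain ⟨Z, z1, z2⟩ := norm_pc hc hW
  refine ⟨(Fintype.card (M ≃ₐ[K] M) : ℝ)⁻¹ • Z, Submodule.smul_mem _ _ z1, fun P Q r k h => ?_⟩
  obtain ⟨P', l⟩ := Pb.up_fin (K' := M) P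
  have e := z2 P' Q (lies_tw l k)
  have le : ∑ _τ : M ≃ₐ[K] M, P'.ord (algebraMap K M P.t) * r ≤
      ∑ τ : M ≃ₐ[K] M, W (cj τ.symm P') := Finset.sum_le_sum fun τ _ => by
    have := h _ (cj_lies τ.symm l)
    rwa [cj_symm, τ.commutes] at this
  rw [← e, e_tw Q l, Finset.sum_const, Finset.card_univ, nsmul_eq_mul] at le
  have c0 : (0 : ℝ) < Fintype.card (M ≃ₐ[K] M) := by exact_mod_cast Fintype.card_pos
  have e0 : (0 : ℝ) < P'.ord (algebraMap K M P.t) := by exact_mod_cast l.e_pos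
  rw [Pi.smul_apply, smul_eq_mul, mul_left_comm, le_inv_mul_iff₀ c0]
  push_cast at le
  refine le_of_mul_le_mul_left ?_ e0
  linarith

variable {y : Fin n → L} {α t g : M} {Γ : BD K} {N : BD L} {t₀ : K} {J : Type} [Fintype J]
  {a b : J → M} {β : J → ℝ} {W : BD M}

namespace Cf

variable (h : Cf n L y α t Γ N t₀ g a b β W) {i j k : J}
include h

theorem l_ne (i : J) : a i * t + b i ≠ 0 := fun e => by
  have := h.nt
  obtain ⟨j, hj⟩ := exists_ne i
  by_cases a0 : a i = 0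
  · rw [a0, zero_mul, zero_add] at e
    exact h.det j i hj (by simp [a0, e])
  · refine h.co.trans h.toBs.tr1 ?_
    rw [show t = -b i / a i by field_simp; linear_combination e]
    exact isAlgebraic_algebraMap (⟨_, div_mem (neg_mem (h.mb i)) (h.ma i)⟩ : CC L M)

theorem dl (i j : J) : a i * b j - a j * b i ∈ CC L M :=
  sub_mem (mul_mem (h.ma i) (h.mb j)) (mul_mem (h.ma j) (h.mb i))

theorem co_l (e : i ≠ j) : Co (CC L M) ((a i * t + b i) / (a j * t + b j)) := by
  refine eq_top_iff.2 (h.co.ge.trans (IntermediateField.adjoin_simple_le_iff.2 ?_))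
  have c : ∀ z ∈ CC L M, z ∈ IntermediateField.adjoin (CC L M)
      {(a i * t + b i) / (a j * t + b j)} := fun z hz =>
    IntermediateField.algebraMap_mem _ (⟨z, hz⟩ : CC L M)
  have u := IntermediateField.mem_adjoin_simple_self (CC L M) ((a i * t + b i) / (a j * t + b j))
  have := div_mem (sub_mem (c _ (h.mb i)) (mul_mem (c _ (h.mb j)) u))
    (sub_mem (mul_mem (c _ (h.ma j)) u) (c _ (h.ma i)))
  have l0 := h.l_ne j
  have d0 := h.det i j e
  have e1 : a j * ((a i * t + b i) / (a j * t + b j)) - a i =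
      -(a i * b j - a j * b i) / (a j * t + b j) := by field_simp; ring
  have e2 : b i - b j * ((a i * t + b i) / (a j * t + b j)) =
      t * (-(a i * b j - a j * b i) / (a j * t + b j)) := by
    rw [← mul_div_assoc, ← mul_div_assoc, eq_div_iff l0, sub_mul, div_mul_cancel₀ _ l0]
    ring
  rwa [e1, e2, mul_div_cancel_right₀ _ (div_ne_zero (neg_ne_zero.2 d0) l0)] at this

theorem der_l {d : M → M} (d1 : De d) (d2 : ∀ c ∈ CC L M, d c = 0) (d3 : d t = 1) (i j : J)
    {c c' : M} (c1 : c ∈ CC L M) (c2 : c' ∈ CC L M) :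
    d (c * ((a i * t + b i) / (a j * t + b j)) - c') =
      c * ((a i * b j - a j * b i) / (a j * t + b j) ^ 2) := by
  have k : ∀ i, d (a i * t + b i) = a i := fun i => by
    rw [d1.add, d1.mul, d3, d2 _ (h.ma i), d2 _ (h.mb i)]
    simp
  have l0 := h.l_ne j
  have := d1.mul ((a i * t + b i) / (a j * t + b j)) (a j * t + b j)
  rw [div_mul_cancel₀ _ l0, k, k] at this
  rw [sub_eq_add_neg, d1.add, d1.neg, d2 _ c2, d1.mul, d2 _ c1]
  simp only [RingHom.id_apply] at this ⊢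
  rw [mul_zero, add_zero, neg_zero, add_zero]
  congr 1
  have hu := div_mul_cancel₀ (a i * t + b i) l0
  rw [eq_div_iff (pow_ne_zero 2 l0)]
  generalize (a i * t + b i) / (a j * t + b j) = u at this hu ⊢
  linear_combination (-(a j * t + b j)) * this - a j * hu

theorem kp_l (e : i ≠ j) {c c' : M} (c1 : c ∈ CC L M) (c0 : c ≠ 0) (c2 : c' ∈ CC L M) :
    AlgebraicIndependent ℂ (Fin.cons (c * ((a i * t + b i) / (a j * t + b j)) - c')
      fun i => algebraMap L M (y i) : Fin (n + 1) → M) ∧ ∀ P : Pl M,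
      kp y (c * ((a i * t + b i) / (a j * t + b j)) - c') P + 1 -
        P.ord (c * ((a i * t + b i) / (a j * t + b j))) = dd y t a b i j P := by
  obtain ⟨d, d1, d2, d3, d4⟩ := h.toBs.exD
  have li := h.l_ne i
  have lj := h.l_ne j
  have d0 := h.det i j e
  have k := d4 (c * ((a i * t + b i) / (a j * t + b j)) - c')
  rw [h.der_l d1 d2 d3 i j c1 c2] at k
  have n0 := mul_ne_zero c0 (div_ne_zero d0 (pow_ne_zero 2 lj))
  refine ⟨k.1.1 n0, fun P => ?_⟩
  rw [k.2 n0, Pi.add_apply, dv_apply, Pl.ord_mul _ c0 (div_ne_zero d0 (pow_ne_zero 2 lj)),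
    Pl.ord_div _ d0 (pow_ne_zero 2 lj), Pl.ord_pow, Pl.ord_mul _ c0 (div_ne_zero li lj),
    Pl.ord_div _ li lj, dd]
  push_cast
  ring

theorem low (e : i ≠ j) {P : Pl M} {Q : Pl L} (l : Lies (algebraMap L M) P Q) :
    P.ord (algebraMap L M Q.t) * (kap y Q + 1) ≤ dd y t a b i j P := by
  obtain ⟨k1, k2⟩ := h.kp_l e (one_mem _) one_ne_zero (zero_mem _)
  have := k4 h.fl h.toBs.fm lin l k1
  have k3 := k2 P
  rw [sub_zero] at this k3
  unfold kp at k3
  linarith

theorem strict (e : i ≠ j) {P : Pl M} {Q : Pl L} (l : Lies (algebraMap L M) P Q) {c c' : M}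
    (c1 : c ∈ CC L M) (c0 : c ≠ 0) (c2 : c' ∈ CC L M)
    (u0 : P.ord (c * ((a i * t + b i) / (a j * t + b j))) = 0)
    (u1 : Mx P (c * ((a i * t + b i) / (a j * t + b j)) - c')) :
    P.ord (algebraMap L M Q.t) * (kap y Q + 1) < dd y t a b i j P := by
  obtain ⟨k1, k2⟩ := h.kp_l e c1 c0 c2
  have := k4 h.fl h.toBs.fm lin l k1
  have k3 := k2 P
  have k4 : (0 : ℝ) < P.ord (c * ((a i * t + b i) / (a j * t + b j)) - c') := by
    exact_mod_cast (mx_iff.1 u1).resolve_left (k1.ne_zero 0)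
  rw [u0] at k3
  unfold kp at k3
  push_cast at k3
  linarith

/-- the main inequality for a fractional matching -/
theorem core (c : J → J → ℝ) (c2 : ∀ k, ∑ j, c k j + ∑ i, c i k = β k) :
    ∃ Z : BD L, Z - (N - cn L n) ∈ Prn L ∧ ∀ (P : Pl K) Q (γ : ℝ), Lies (inc L) P Q →
      (∀ P', Lies (algebraMap K M) P' P → P'.ord (algebraMap K M P.t) * γ ≤ ∑ i, ∑ j, c i j *
        (dd y t a b i j P' - P'.ord (algebraMap L M Q.t) * (kap y Q + 1))) →
      P.ord (inc L Q.t) - (1 + dsc (n + 1) Γ P) + γ ≤ P.ord (inc L Q.t) * Z Q := by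
  obtain ⟨Z, z1, z2⟩ := avg h.cld (W := ∑ i, ∑ j, c i j • dv (a i * b j - a j * b i) - W)
    (sub_mem (sum_mem fun i _ => sum_mem fun j _ => Submodule.smul_mem _ _
      (Submodule.subset_span ⟨_, h.dl i j, rfl⟩)) h.pc)
  obtain ⟨f, -, ef⟩ := kap_cn h.fl h.yi
  have s1 : ∑ i, ∑ j, c i j = 1 := by
    have := h.sum
    simp only [← c2, Finset.sum_add_distrib] at this
    rw [Finset.sum_comm (f := fun k i => c i k)] at this
    linarith
  refine ⟨Z + N - kap y, ?_, fun P Q γ k hγ => ?_⟩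
  · rw [ef, show Z + N - (cn L n + dv f) - (N - cn L n) = Z - dv f by abel]
    exact sub_mem z1 (dv_mem_Prn f)
  have := z2 P Q (P.ord (inc L Q.t) * (kap y Q + 1 - N Q) - (1 + dsc (n + 1) Γ P) + γ) k
    fun P' l => ?_
  · simp only [Pi.add_apply, Pi.sub_apply]
    linarith
  have e1 := h.eq P' P l
  have e2 := hγ P' l
  have e3 : ∑ i, β i * (P'.ord (a i * t + b i) : ℝ) = ∑ i, ∑ j, c i j *
      (P'.ord (a i * t + b i) + P'.ord (a j * t + b j) : ℝ) := by
    simp only [← c2, add_mul, mul_add, Finset.sum_add_distrib, Finset.sum_mul]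
    rw [Finset.sum_comm (f := fun k i => c i k * (P'.ord (a k * t + b k) : ℝ))]
  have e4 : ∑ i, ∑ j, c i j * (dd y t a b i j P' - P'.ord (algebraMap L M Q.t) * (kap y Q + 1)) =
      (∑ i, ∑ j, c i j) * (kp y t P' + 1 - P'.ord (algebraMap L M Q.t) * (kap y Q + 1)) +
      ∑ i, ∑ j, c i j * (P'.ord (a i * b j - a j * b i) : ℝ) -
      ∑ i, ∑ j, c i j * (P'.ord (a i * t + b i) + P'.ord (a j * t + b j) : ℝ) := by
    simp only [Finset.sum_mul, ← Finset.sum_add_distrib, ← Finset.sum_sub_distrib]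
    exact Finset.sum_congr rfl fun i _ => Finset.sum_congr rfl fun j _ => by rw [dd]; ring
  rw [e4, s1, ← e3, e_tw Q l] at e2
  rw [k.pb] at e1
  simp only [Pi.sub_apply, Finset.sum_apply, Pi.smul_apply, smul_eq_mul, dv_apply]
  push_cast at e2
  linarith

/-! ### the points -/

theorem ex_pt (i : J) : ∃ P : Pl M, Hor (CC L M) P ∧
    ∀ j, j ≠ i → P.ord ((a i * t + b i) / (a j * t + b j)) = 1 := by
  have := h.nt
  obtain ⟨k, hk⟩ := exists_ne i
  obtain ⟨P, h1, h2⟩ := liou h.toBs.fm h.toBs.tr1 ((h.co_l hk.symm).trans h.toBs.tr1)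
  refine ⟨P, h1, fun j hj => (h.co_l hj.symm).ord_one h1 ?_⟩
  have li := h.l_ne i
  have lj := h.l_ne j
  have lk := h.l_ne k
  have d1 := h.det i k hk.symm
  have d2 := h.det i j hj.symm
  have m := (mx_iff.2 (Or.inr h2)).mul (h1 _ (div_mem (h.dl j k) (h.dl i j)))
  have e : (a j * b k - a k * b j) / (a i * b j - a j * b i) * ((a i * t + b i) / (a k * t + b k)) =
      (a i * b k - a k * b i) / (a i * b j - a j * b i) * ((a j * t + b j) / (a k * t + b k)) -
        1 := by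
    rw [div_mul_div_comm, div_mul_div_comm, div_sub_one (mul_ne_zero d2 lk)]
    congr 1
    ring
  rw [e] at m
  have := (one_ord m).2
  rw [Pl.ord_mul _ (div_ne_zero d1 d2) (div_ne_zero lj lk),
    hor_ord h1 (div_mem (h.dl i k) (h.dl i j)), Pl.ord_div _ lj lk] at this
  rw [Pl.ord_div _ li lk] at h2
  rw [Pl.ord_div _ li lj]
  omega

/-- the point `l i = 0` -/
def pt (i : J) : Pl M := (h.ex_pt i).choose

theorem pt_hor (i : J) : Hor (CC L M) (h.pt i) := (h.ex_pt i).choose_spec.1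

theorem pt_ord (e : j ≠ i) : (h.pt i).ord ((a i * t + b i) / (a j * t + b j)) = 1 :=
  (h.ex_pt i).choose_spec.2 j e

theorem eq_pt (e : j ≠ i) {P : Pl M} (a1 : Hor (CC L M) P)
    (a2 : 0 < P.ord ((a i * t + b i) / (a j * t + b j))) : P = h.pt i :=
  (h.co_l e.symm).uniq a1 a2 (h.pt_hor i) (by rw [h.pt_ord e]; omega)

theorem pt_sub (e : j ≠ i) : (h.pt i).ord (a i * t + b i) = (h.pt i).ord (a j * t + b j) + 1 := by
  have := h.pt_ord e
  rw [Pl.ord_div _ (h.l_ne i) (h.l_ne j)] at this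
  omega

theorem pt_inj : Function.Injective h.pt := fun i j e => by
  by_contra k
  have h1 := h.pt_sub k
  have h2 := h.pt_sub (Ne.symm k)
  rw [e] at h2
  omega

open Classical in
theorem ord_l (i j : J) {P : Pl M} (a1 : Hor (CC L M) P) :
    P.ord ((a i * t + b i) / (a j * t + b j)) =
      (if P = h.pt i then 1 else 0) - (if P = h.pt j then 1 else 0) := by
  by_cases e : i = j
  · simp [e, h.l_ne j]
  have k : P.ord ((a j * t + b j) / (a i * t + b i)) =
      -P.ord ((a i * t + b i) / (a j * t + b j)) := by rw [← Pl.ord_inv, inv_div]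
  have ne : h.pt i ≠ h.pt j := fun k => e (h.pt_inj k)
  by_cases h1 : P = h.pt i
  · subst h1
    simp [ne, h.pt_ord (Ne.symm e)]
  by_cases h2 : P = h.pt j
  · subst h2
    have := h.pt_ord e
    simp only [ne.symm, if_false, if_true]
    omega
  have k1 := mt (h.eq_pt (Ne.symm e) a1) h1
  have k2 := mt (h.eq_pt e a1) h2
  simp only [h1, h2, if_false]
  omega

theorem hor_eq {P' : Pl M} {P : Pl K} (l : Lies (algebraMap K M) P' P) (a1 : Hor L P) :
    1 + dsc (n + 1) Γ P = kp y t P' + 1 - ∑ i, β i * P'.ord (a i * t + b i) := by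
  have := h.eq P' P l
  have w : ∀ W ∈ PC L M, W P' = 0 := fun W hW => by
    induction hW using Submodule.span_induction with
    | mem x hx =>
      obtain ⟨c, c1, rfl⟩ := hx
      rw [dv_apply, hor_ord ((hor_up l).2 a1) c1, Int.cast_zero]
    | zero => rfl
    | add x y _ _ hx hy => rw [Pi.add_apply, hx, hy, add_zero]
    | smul r x _ hx => rw [Pi.smul_apply, hx, smul_zero]
  rw [h.toBs.e_one l a1, w W h.pc, Trv.pb (φ := inc L) fun f => a1 f f.2] at this
  simpa using this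

theorem dsc_pt {P : Pl K} (l : Lies (algebraMap K M) (h.pt i) P) : dsc (n + 1) Γ P = -β i := by
  classical
  have := h.nt
  obtain ⟨j, hj⟩ := exists_ne i
  have e1 := h.hor_eq l ((hor_up l).1 (h.pt_hor i))
  have e2 := (h.kp_l hj.symm (one_mem _) one_ne_zero (zero_mem _)).2 (h.pt i)
  rw [sub_zero, one_mul, kp, kap_pt h.toBs.fm h.toBs.yy (fun i => mem_CC_of _) (h.pt_hor i)
    (h.pt_ord hj), h.pt_ord hj, dd, hor_ord (h.pt_hor i) (h.dl i j), h.pt_sub hj] at e2
  have e3 : ∑ k, β k * ((h.pt i).ord (a k * t + b k) : ℝ) =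
      ∑ k, (β k * (h.pt i).ord (a j * t + b j) + if k = i then β k else 0) :=
    Finset.sum_congr rfl fun k _ => by
      split_ifs with e
      · rw [e, h.pt_sub hj]; push_cast; ring
      · have h1 := h.pt_sub e
        rw [h.pt_sub hj] at h1
        rw [add_left_injective _ h1, add_zero]
  rw [e3, Finset.sum_add_distrib, ← Finset.sum_mul, h.sum, Finset.sum_ite_eq'] at e1
  simp only [Finset.mem_univ, if_true] at e1
  push_cast at e2
  linarith

theorem is_pt {P' : Pl M} {P : Pl K} (l : Lies (algebraMap K M) P' P) (a1 : Hor L P)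
    (a2 : dsc (n + 1) Γ P < 0) : ∃ i, P' = h.pt i := by
  classical
  by_contra hn
  push Not at hn
  have := h.nt
  obtain ⟨i, j, hj⟩ := exists_pair_ne J
  have a3 := (hor_up l).2 a1
  have o : ∀ k, P'.ord (a k * t + b k) = P'.ord (a j * t + b j) := fun k => by
    have := h.ord_l k j a3
    rw [if_neg (hn k), if_neg (hn j), Pl.ord_div _ (h.l_ne k) (h.l_ne j)] at this
    omega
  have o1 : P'.ord ((a i * t + b i) / (a j * t + b j)) = 0 := by
    rw [Pl.ord_div _ (h.l_ne i) (h.l_ne j), o i, sub_self]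
  have e1 := h.hor_eq l a1
  have e2 := (h.kp_l hj (one_mem _) one_ne_zero (zero_mem _)).2 P'
  rw [sub_zero, one_mul, o1, dd, hor_ord a3 (h.dl i j), o i] at e2
  have e3 : 0 ≤ kp y ((a i * t + b i) / (a j * t + b j)) P' := kap_reg h.toBs.fm fun k =>
    Fin.cases (mem_ord o1.ge) (fun k => a3 _ (mem_CC_of _)) k
  simp only [o, ← Finset.sum_mul, h.sum] at e1
  push_cast at e2
  linarith

theorem ex_lo (P' : Pl M) : ∃ P, Lies (algebraMap K M) P' P := Pb.down h.fk h.toBs.fm P'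

theorem rul0 (h1 : ∀ P, Hor L P → dsc (n + 1) Γ P ≤ 0) (h2 : ∀ P, Hor L P → -1 ≤ dsc (n + 1) Γ P) :
    (∀ i, 0 ≤ β i) ∧ (∀ i, β i ≤ 1) ∧ ∃ Z, Rz n L Γ N Z := by
  have b0 : ∀ i, 0 ≤ β i ∧ β i ≤ 1 := fun i => by
    obtain ⟨P, l⟩ := h.ex_lo (h.pt i)
    have a1 := (hor_up l).1 (h.pt_hor i)
    have k1 := h1 P a1
    have k2 := h2 P a1
    rw [h.dsc_pt l] at k1 k2
    constructor <;> linarith
  obtain ⟨c, c0, c1, c2⟩ := cvx β (fun i => (b0 i).1) (fun i => (b0 i).2) h.sum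
  obtain ⟨Z, z1, z2⟩ := h.core c c2
  refine ⟨fun i => (b0 i).1, fun i => (b0 i).2, Z, z1, fun P Q k => ?_⟩
  have := z2 P Q 0 k fun P' l => by
    rw [mul_zero]
    refine Finset.sum_nonneg fun i _ => Finset.sum_nonneg fun j _ => ?_
    by_cases e : i = j
    · rw [e, c1, zero_mul]
    · exact mul_nonneg (c0 i j) (sub_nonneg.2 (h.low e (lies_tw l k)))
  rwa [add_zero] at this

end Cf

end Vale.Agent.P287D.Ru
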