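import Vale.Agent.P287D.Ru.Pt
import Vale.Agent.P287D.Ru.St

/-!
# P287D, block RUL: the Galois extension over which everything splits
-/

open Set Polynomial IntermediateField
open Vale.Agent.P297Z Vale.Agent.P287D.Cb

noncomputable section

namespace Vale.Agent.P287D.Ru

variable {K : Type} [Field K] [Algebra ℂ K]

/-- the constants of an extension -/
def CC (L : IntermediateField ℂ K) (M : Type) [Field M] [Algebra ℂ M] [Algebra K M]
    [IsScalarTower ℂ K M] : IntermediateField ℂ M := (algebraicClosure L M).restrictScalars ℂ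

theorem mem_CC {L : IntermediateField ℂ K} {M : Type} [Field M] [Algebra ℂ M] [Algebra K M]
    [IsScalarTower ℂ K M] {z : M} : z ∈ CC L M ↔ IsAlgebraic L z := mem_algebraicClosure_iff

/-- `g` is a product of linear factors -/
def Spl {M ι : Type} [Field M] [Algebra ℂ M] [Fintype ι] (C : IntermediateField ℂ M) (x : ι → M)
    (t g : M) : Prop := ∃ c ∈ C, ∃ m : ι → ℤ, g = c * ∏ i, (t - x i) ^ m i

/-- the data of a splitting extension -/
structure Dat (L : IntermediateField ℂ K) (T : Finset K) (t₀ : K) {M ι : Type} [Field M]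
    [Algebra ℂ M] [Algebra K M] [IsScalarTower ℂ K M] [Fintype ι] (α t g : M) (x : ι → M) :
    Prop where
  ne : Nonempty ι
  inj : Function.Injective x
  alg : IsAlgebraic L α
  gen : Subfield.closure (range (algebraMap K M) ∪ {α}) = ⊤
  co : Co (CC L M) t
  mem : ∀ i, x i ∈ CC L M
  spl : ∀ f ∈ T, Spl (CC L M) x t (algebraMap K M f)
  spg : Spl (CC L M) x t g
  der : ∀ d : M → M, De d → (∀ c ∈ CC L M, d c = 0) → d t = 1 → d (algebraMap K M t₀) = g

section omega

variable {Ω : Type} [Field Ω] [IsAlgClosed Ω] [Algebra ℂ Ω] [Algebra K Ω] [IsScalarTower ℂ K Ω]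
  {L : IntermediateField ℂ K}

omit [Algebra ℂ Ω] [IsScalarTower ℂ K Ω] in
theorem exM0 (S : Finset Ω) (hS : ∀ s ∈ S, IsAlgebraic L s) : ∃ M : IntermediateField K Ω,
    FiniteDimensional K M ∧ IsGalois K M ∧ (∀ s ∈ S, s ∈ M) ∧ ∃ α, IsAlgebraic L α ∧ M = K⟮α⟯ := by
  have : CharZero L := algebraRat.charZero _
  have : CharZero K := charZero_of_injective_algebraMap (algebraMap ℂ K).injective
  have p0 : ∏ s ∈ S, minpoly L s ≠ 0 :=
    Finset.prod_ne_zero_iff.2 fun s hs => minpoly.ne_zero (hS s hs).isIntegral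
  obtain ⟨p, hp⟩ : ∃ p, p = ∏ s ∈ S, minpoly L s := ⟨_, rfl⟩
  rw [← hp] at p0
  have q0 : p.map (algebraMap L K) ≠ 0 := Polynomial.map_ne_zero p0
  have eR : (p.map (algebraMap L K)).rootSet Ω = p.rootSet Ω := by
    ext a
    simp [mem_rootSet, p0, q0, aeval_map_algebraMap]
  have sp := adjoin_rootSet_isSplittingField (L := Ω) (IsAlgClosed.splits
    ((p.map (algebraMap L K)).map (algebraMap K Ω)))
  have f1 := IsSplittingField.finiteDimensional (adjoin K ((p.map (algebraMap L K)).rootSet Ω))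
    (p.map (algebraMap L K))
  have n1 := Normal.of_isSplittingField (hFEp := sp)
  have f2 : FiniteDimensional L (adjoin L (p.rootSet Ω)) := finiteDimensional_adjoin fun a ha =>
    (show IsAlgebraic L a from ⟨p, p0, (mem_rootSet.1 ha).2⟩).isIntegral
  obtain ⟨a, ha⟩ := Field.exists_primitive_element L (adjoin L (p.rootSet Ω))
  have e := lift_adjoin_simple _ _ a
  rw [ha, lift_top] at e
  refine ⟨_, f1, ⟨⟩, fun s hs => subset_adjoin _ _ ?_, a, isAlgebraic_iff.1
    (Algebra.IsAlgebraic.isAlgebraic a), ?_⟩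
  · rw [eR, mem_rootSet, hp, map_prod]
    exact ⟨hp ▸ p0, Finset.prod_eq_zero hs (minpoly.aeval _ _)⟩
  · rw [eR]
    refine le_antisymm (adjoin_le_iff.2 fun r hr => ?_) (adjoin_simple_le_iff.2 ?_)
    · have h1 : r ∈ adjoin L (p.rootSet Ω) := subset_adjoin _ _ hr
      rw [e] at h1
      exact (adjoin_simple_le_iff (K := (K⟮(a : Ω)⟯).restrictScalars L)).2
        (mem_adjoin_simple_self K _) h1
    · exact (adjoin_le_iff (T := (adjoin K (p.rootSet Ω)).restrictScalars L)).2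
        (subset_adjoin K _) a.2

/-- products of linear factors -/
def Hs (L : IntermediateField ℂ K) (t z : Ω) : Prop := ∃ c, IsAlgebraic L c ∧ ∃ m : Ω →₀ ℤ,
  (∀ x ∈ m.support, IsAlgebraic L x) ∧ z = c * m.prod fun x k => (t - x) ^ k

omit [IsAlgClosed Ω] [Algebra ℂ Ω] [IsScalarTower ℂ K Ω] in
theorem Hs.mul {t z w : Ω} (ht : ¬ IsAlgebraic L t) (a : Hs L t z) (b : Hs L t w) :
    Hs L t (z * w) := by
  classical
  obtain ⟨c, c1, m, m1, rfl⟩ := a
  obtain ⟨d, d1, l, l1, rfl⟩ := b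
  have k : ∀ x ∈ m.support ∪ l.support, IsAlgebraic L x := fun x hx =>
    (Finset.mem_union.1 hx).elim (m1 x) (l1 x)
  refine ⟨c * d, c1.mul d1, m + l, fun x hx => k x (Finsupp.support_add hx), ?_⟩
  rw [Finsupp.prod_add_index (fun _ _ => zpow_zero _) fun x hx _ _ => zpow_add₀
    (sub_ne_zero.2 fun e : t = x => ht (e ▸ k x hx)) _ _]
  ring

omit [IsAlgClosed Ω] [Algebra ℂ Ω] [IsScalarTower ℂ K Ω] in
theorem Hs.inv {t z : Ω} (a : Hs L t z) : Hs L t z⁻¹ := by
  obtain ⟨c, c1, m, m1, rfl⟩ := a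
  refine ⟨c⁻¹, c1.inv, -m, by rwa [Finsupp.support_neg], ?_⟩
  rw [Finsupp.prod_neg_index fun _ => zpow_zero _, mul_inv, Finsupp.prod, Finsupp.prod,
    ← Finset.prod_inv_distrib]
  simp only [zpow_neg]

omit [IsAlgClosed Ω] [Algebra ℂ Ω] [IsScalarTower ℂ K Ω] in
theorem Hs.cst {t c : Ω} (h : IsAlgebraic L c) : Hs L t c := ⟨c, h, 0, by simp, by simp⟩

omit [Algebra ℂ Ω] [IsScalarTower ℂ K Ω] in
theorem hs_of {t z : Ω} (hz : z ∈ (algebraicClosure L Ω)⟮t⟯) : Hs L t z := by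
  obtain ⟨p, q, rfl⟩ := (mem_adjoin_simple_iff _ z).1 hz
  rw [div_eq_mul_inv]
  have up : ∀ {a : Ω}, IsAlgebraic (algebraicClosure L Ω) a → IsAlgebraic L a :=
    fun h => h.restrictScalars L
  by_cases ht : IsAlgebraic L t
  · have k : ∀ p : (algebraicClosure L Ω)[X], IsAlgebraic L (aeval t p) := fun p => by
      have := (aeval_algebraMap_apply Ω (⟨t, mem_algebraicClosure_iff.2 ht⟩ :
        algebraicClosure L Ω) p).trans rfl
      exact this ▸ mem_algebraicClosure_iff.1 (Subtype.prop _)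
    exact Hs.cst ((k p).mul (k q).inv)
  have k : ∀ p : (algebraicClosure L Ω)[X], Hs L t (aeval t p) := fun p => by
    rw [(IsAlgClosed.splits _).aeval_eq_prod_aroots]
    refine (Hs.cst (mem_algebraicClosure_iff.1 (Subtype.prop _))).mul ht
      (Multiset.prod_induction _ _ (fun _ _ => Hs.mul ht) (Hs.cst isAlgebraic_one) fun a ha => ?_)
    obtain ⟨a, h1, rfl⟩ := Multiset.mem_map.1 ha
    refine ⟨1, isAlgebraic_one, Finsupp.single a 1, fun x hx => ?_, by simp⟩
    rw [Finset.mem_singleton.1 (Finsupp.support_single_subset hx)]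
    exact up ⟨p, fun e => (mem_aroots'.1 h1).1 (by rw [e, Polynomial.map_zero]),
      (mem_aroots'.1 h1).2⟩
  exact (k p).mul ht (k q).inv

theorem exM1 (hK : Algebra.EssFiniteType ℂ K) (T : Finset K) (t₀ : K) {t : Ω}
    (h1 : t ∈ adjoin K {z : Ω | IsAlgebraic L z})
    (h2 : ∀ f, algebraMap K Ω f ∈ (algebraicClosure L Ω)⟮t⟯) : ∃ M : IntermediateField K Ω,
      FiniteDimensional K M ∧ IsGalois K M ∧ ∃ (α t g : M) (X : Finset Ω) (x : X → M),
        Dat L T t₀ α t g x := by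
  classical
  obtain ⟨G, hG⟩ := fg_top_iff.2 hK
  obtain ⟨St, s1, s2⟩ := exists_finset_of_mem_adjoin h1
  choose c c1 m m1 e using fun f => hs_of (h2 f)
  obtain ⟨g, hg⟩ : ∃ g, g = algebraMap K Ω t₀ * (m t₀).sum fun x k => k * (t - x)⁻¹ := ⟨_, rfl⟩
  obtain ⟨cg, cg1, mg, mg1, eg⟩ := hs_of (L := L) (t := t) (z := g) (by
    rw [hg]
    refine mul_mem (h2 _) (sum_mem fun x hx => mul_mem (intCast_mem _ _) (inv_mem (sub_mem
      (mem_adjoin_simple_self _ _) ?_)))
    exact IntermediateField.algebraMap_mem _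
      (⟨x, mem_algebraicClosure_iff.2 (m1 _ x hx)⟩ : algebraicClosure L Ω))
  obtain ⟨U, hU⟩ : ∃ U, U = insert t₀ (T ∪ G) := ⟨_, rfl⟩
  obtain ⟨X, hX⟩ : ∃ X, X = insert 0 (mg.support ∪ U.biUnion fun f => (m f).support) := ⟨_, rfl⟩
  have x1 : ∀ f ∈ U, (m f).support ⊆ X := fun f hf x hx => by
    rw [hX]
    exact Finset.mem_insert_of_mem (Finset.mem_union_right _ (Finset.mem_biUnion.2 ⟨f, hf, hx⟩))
  have x2 : mg.support ⊆ X := fun x hx => by
    rw [hX]
    exact Finset.mem_insert_of_mem (Finset.mem_union_left _ hx)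
  have x3 : ∀ x ∈ X, IsAlgebraic L x := fun x hx => by
    rw [hX] at hx
    rcases Finset.mem_insert.1 hx with rfl | hx
    · exact isAlgebraic_zero
    rcases Finset.mem_union.1 hx with hx | hx
    · exact mg1 x hx
    · obtain ⟨f, -, hx⟩ := Finset.mem_biUnion.1 hx
      exact m1 f x hx
  obtain ⟨M, f1, g1, hM, α, a1, a2⟩ := exM0 (L := L) (insert cg (X ∪ (St ∪ U.image c))) (by
    intro s hs
    simp only [Finset.mem_insert, Finset.mem_union, Finset.mem_image] at hs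
    rcases hs with rfl | hs | hs | ⟨f, -, rfl⟩
    exacts [cg1, x3 s hs, s1 hs, c1 f])
  have xM : ∀ x ∈ X, x ∈ M := fun x hx => hM x (by simp [hx])
  have cM : ∀ f ∈ U, c f ∈ M := fun f hf => hM _ (by
    simp only [Finset.mem_insert, Finset.mem_union, Finset.mem_image]
    exact Or.inr (Or.inr (Or.inr ⟨f, hf, rfl⟩)))
  have tM : t ∈ M := adjoin_le_iff.2 (fun s hs => hM s (by simp [Finset.mem_coe.1 hs])) s2
  have αM : α ∈ M := a2 ▸ mem_adjoin_simple_self K α
  have al : ∀ z : M, IsAlgebraic L (z : Ω) → IsAlgebraic L z := fun z h =>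
    (isAlgebraic_algHom_iff ((M.val).restrictScalars L) M.val.injective).1 h
  have tr : ∀ (z : M) (c : Ω) (hc : c ∈ M) (m : Ω →₀ ℤ), IsAlgebraic L c → m.support ⊆ X →
      (z : Ω) = (c * m.prod fun x k => (t - x) ^ k) →
      Spl (CC L M) (fun i : X => (⟨i, xM i i.2⟩ : M)) ⟨t, tM⟩ z := fun z c hc m c1 m1 e => by
    refine ⟨⟨c, hc⟩, mem_CC.2 (al _ c1), fun i => m i, M.val.injective ?_⟩
    rw [Finsupp.prod_of_support_subset _ m1 _ fun _ _ => zpow_zero _,
      ← Finset.prod_coe_sort] at e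
    simp only [map_mul, map_prod, map_zpow₀, map_sub]
    exact e
  have gM : g ∈ M := by
    rw [eg]
    exact mul_mem (hM _ (by simp)) (prod_mem fun x hx => zpow_mem (sub_mem tM (xM x (x2 hx))) _)
  have sU : ∀ f ∈ U, Spl (CC L M) (fun i : X => (⟨i, xM i i.2⟩ : M)) ⟨t, tM⟩ (algebraMap K M f) :=
    fun f hf => tr _ _ (cM f hf) _ (c1 f) (x1 f hf) (e f)
  have xC : ∀ i : X, (⟨i, xM i i.2⟩ : M) ∈ CC L M := fun i => mem_CC.2 (al _ (x3 i i.2))
  have gen : Subfield.closure (range (algebraMap K M) ∪ {⟨α, αM⟩}) = ⊤ := by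
    refine eq_top_iff.2 fun z _ => ?_
    have hz : (z : Ω) ∈ (K⟮α⟯).toSubfield := a2 ▸ z.2
    rw [adjoin_toSubfield] at hz
    have := RingHom.map_field_closure (algebraMap M Ω) (range (algebraMap K M) ∪ {⟨α, αM⟩})
    rw [image_union, image_singleton, ← range_comp] at this
    obtain ⟨w, hw, k⟩ := (this.ge hz :)
    exact (show w = z from Subtype.ext k) ▸ hw
  refine ⟨M, f1, g1, ⟨α, αM⟩, ⟨t, tM⟩, ⟨g, gM⟩, X, _, ⟨⟨0, by simp [hX]⟩⟩,
    fun i j k => Subtype.ext (congrArg Subtype.val k :), al _ a1, gen, ?_, xC,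
    fun f hf => sU f (by simp [hU, hf]), tr _ _ (hM _ (by simp)) _ cg1 x2 eg, fun d hd hc ht => ?_⟩
  · have cm : ∀ z ∈ CC L M, z ∈ adjoin (CC L M) {(⟨t, tM⟩ : M)} := fun z hz =>
      IntermediateField.algebraMap_mem _ (⟨z, hz⟩ : CC L M)
    refine eq_top_iff.2 fun z _ => (Subfield.closure_le (t := (adjoin (CC L M)
      {(⟨t, tM⟩ : M)}).toSubfield)).2 ?_ (gen.ge (Subfield.mem_top z))
    rintro _ (⟨f, rfl⟩ | rfl)
    · have : (⊤ : IntermediateField ℂ K) ≤ ((adjoin (CC L M) {(⟨t, tM⟩ : M)}).restrictScalars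
          ℂ).comap (IsScalarTower.toAlgHom ℂ K M) := hG ▸ adjoin_le_iff.2 fun f hf => by
        obtain ⟨c, c1, m, e⟩ := sU f (by simp [hU, Finset.mem_coe.1 hf])
        change algebraMap K M f ∈ adjoin (CC L M) {(⟨t, tM⟩ : M)}
        rw [e]
        exact mul_mem (cm c c1) (prod_mem fun i _ => zpow_mem
          (sub_mem (mem_adjoin_simple_self _ _) (cm _ (xC i))) _)
      exact this (mem_top (x := f))
    · exact cm _ (mem_CC.2 (al _ a1))
  · have u0 : t₀ ∈ U := by simp [hU]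
    have e0 : algebraMap K M t₀ = ⟨_, cM _ u0⟩ *
        ∏ i : X, ((⟨t, tM⟩ : M) - ⟨i, xM i i.2⟩) ^ m t₀ i := M.val.injective (by
      have := e t₀
      rw [Finsupp.prod_of_support_subset _ (x1 _ u0) _ fun _ _ => zpow_zero _,
        ← Finset.prod_coe_sort] at this
      simp only [map_mul, map_prod, map_zpow₀, map_sub]
      exact this)
    have e1 : (⟨g, gM⟩ : M) = algebraMap K M t₀ *
        ∑ i : X, m t₀ i * ((⟨t, tM⟩ : M) - ⟨i, xM i i.2⟩)⁻¹ := M.val.injective (by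
      rw [Finsupp.sum_of_support_subset _ (x1 _ u0) _ (by simp), ← Finset.sum_coe_sort] at hg
      simpa [map_sum] using hg)
    have d1 : ∀ i : X, d ((⟨t, tM⟩ : M) - ⟨i, xM i i.2⟩) = 1 := fun i => by
      rw [sub_eq_add_neg, hd.add, hd.neg, ht, hc _ (xC i), neg_zero, add_zero]
    have n1 : ∀ i : X, (⟨t, tM⟩ : M) - ⟨i, xM i i.2⟩ ≠ 0 := fun i k => by
      have := d1 i
      rw [k, hd.zero] at this
      exact zero_ne_one this
    have ld : ∀ s : Finset X, d (∏ i ∈ s, ((⟨t, tM⟩ : M) - ⟨i, xM i i.2⟩) ^ m t₀ i) =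
        (∏ i ∈ s, ((⟨t, tM⟩ : M) - ⟨i, xM i i.2⟩) ^ m t₀ i) *
          ∑ i ∈ s, m t₀ i * ((⟨t, tM⟩ : M) - ⟨i, xM i i.2⟩)⁻¹ := fun s => by
      induction s using Finset.induction_on with
      | empty => simp [hd.one]
      | insert i s hi ih =>
        have := hd.ld_zpow (n1 i) (m t₀ i)
        rw [d1, RingHom.id_apply, RingHom.id_apply, div_eq_iff (zpow_ne_zero _ (n1 i))] at this
        rw [Finset.prod_insert hi, Finset.sum_insert hi, hd.mul, ih, this]
        simp only [RingHom.id_apply]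
        ring
    rw [e1, e0, hd.mul, ld, hc _ (mem_CC.2 (al ⟨_, cM _ u0⟩ (c1 _)))]
    simp only [RingHom.id_apply]
    ring

end omega

theorem exM {L : IntermediateField ℂ K} (hK : Algebra.EssFiniteType ℂ K) (h : Con L)
    (T : Finset K) (t₀ : K) : ∃ (M : Type) (_ : Field M) (_ : Algebra ℂ M) (_ : Algebra K M)
      (_ : IsScalarTower ℂ K M), FiniteDimensional K M ∧ IsGalois K M ∧
      ∃ (α t g : M) (ι : Type) (_ : Fintype ι) (x : ι → M), Dat L T t₀ α t g x := by
  obtain ⟨K₁, _, φ, C, t, h1, h2, h3, h4⟩ := h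
  let j := algebraMap K₁ (AlgebraicClosure K₁)
  let := (j.comp φ).toAlgebra
  let := ((algebraMap K (AlgebraicClosure K₁)).comp (algebraMap ℂ K)).toAlgebra
  have : IsScalarTower ℂ K (AlgebraicClosure K₁) := IsScalarTower.of_algebraMap_eq fun _ => rfl
  have al : ∀ c ∈ C, IsAlgebraic L (j c) := fun c hc => by
    obtain ⟨p, p0, hp⟩ := h2 c hc
    refine ⟨p, p0, ?_⟩
    have := congrArg j hp
    rwa [map_zero, hom_eval₂] at this
  obtain ⟨M, a, b, α, t, g, X, x, d⟩ := exM1 (L := L) hK T t₀ (t := j t) (by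
    refine (Subfield.closure_le (t := (adjoin K {z : AlgebraicClosure K₁ |
      IsAlgebraic L z}).toSubfield.comap j)).2 ?_ (h3.ge (Subfield.mem_top t))
    rintro _ (⟨f, rfl⟩ | hc)
    · exact (adjoin K {z : AlgebraicClosure K₁ | IsAlgebraic L z}).algebraMap_mem f
    · exact subset_adjoin K _ (al _ hc)) fun f => by
    refine (Subfield.closure_le (t := ((algebraicClosure L (AlgebraicClosure K₁))⟮j
      t⟯).toSubfield.comap j)).2 ?_ (h4.ge (Subfield.mem_top (φ f)))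
    rintro z (hc | rfl)
    · exact ((algebraicClosure L (AlgebraicClosure K₁))⟮j t⟯).algebraMap_mem
        ⟨j z, mem_algebraicClosure_iff.2 (al _ hc)⟩
    · exact mem_adjoin_simple_self _ _
  exact ⟨M, _, _, _, inferInstance, a, b, α, t, g, X, _, x, d⟩

end Vale.Agent.P287D.Ru
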