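import Vale.Agent.P287D.Ru.Main

/-!
# P287D, block RUL: the row `TRI`
-/

set_option linter.unusedSectionVars false

open Set Polynomial IntermediateField
open Vale.Agent.P297Z Vale.Agent.P287D.Cb

noncomputable section

namespace Vale.Agent.P287D

namespace Ru

theorem perm3 {O : Type} {i j k a b c : O} (all : ∀ x, x = i ∨ x = j ∨ x = k) (ab : a ≠ b)
    (ac : a ≠ c) (bc : b ≠ c) {p : O → O → O → Prop} (h1 : ∀ a b c, p a b c → p b a c)
    (h2 : ∀ a b c, p a b c → p c b a) (h : p i j k) : p a b c := by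
  rcases all a with rfl | rfl | rfl <;> rcases all b with rfl | rfl | rfl <;>
    rcases all c with rfl | rfl | rfl <;>
    first
      | exact (ab rfl).elim
      | exact (ac rfl).elim
      | exact (bc rfl).elim
      | exact h
      | exact h1 _ _ _ h
      | exact h2 _ _ _ h
      | exact h1 _ _ _ (h2 _ _ _ h)
      | exact h2 _ _ _ (h1 _ _ _ h)
      | exact h1 _ _ _ (h2 _ _ _ (h1 _ _ _ h))

theorem wts {J : Type} [Fintype J] {β : J → ℝ} (h0 : ∀ i, 0 ≤ β i) (hs : ∑ i, β i = 2) {i j k : J}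
    (ij : i ≠ j) (ik : i ≠ k) (jk : j ≠ k) {w : ℝ} (hw : 1 / 2 < w) (bi : β i = w) (bj : β j = w)
    (bk : β k = w) : ∃ c : J → J → ℝ, (∀ k, ∑ j, c k j + ∑ i, c i k = β k) ∧
      ∀ X : J → J → ℝ, (∀ i j, i ≠ j → 0 ≤ X i j) →
        1 / 12 * (X i j + X j i + X i k + X k i + X j k + X k j) ≤ ∑ i, ∑ j, c i j * X i j := by
  classical
  have s3 : ∀ x, x ≠ i → x ≠ j → x ≠ k → β x + 3 * w ≤ 2 := fun x a b c => by
    have := Finset.sum_le_sum_of_subset_of_nonneg (Finset.subset_univ {x, i, j, k})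
      fun i _ _ => h0 i
    rw [Finset.sum_insert (by simp [a, b, c]), Finset.sum_insert (by simp [ij, ik]),
      Finset.sum_pair jk, hs, bi, bj, bk] at this
    linarith
  have s4 : 3 * w ≤ 2 := by
    have := Finset.sum_le_sum_of_subset_of_nonneg (Finset.subset_univ {i, j, k})
      fun i _ _ => h0 i
    rw [Finset.sum_insert (by simp [ij, ik]), Finset.sum_pair jk, hs, bi, bj, bk] at this
    linarith
  obtain ⟨χ, hχ⟩ : ∃ χ : J → J → ℝ, ∀ a x, χ a x = if x = a then 1 else 0 := ⟨_, fun _ _ => rfl⟩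
  have c1 : ∀ a, ∑ x, χ a x = 1 := fun a => by simp [hχ]
  have c2 : ∀ a b (X : J → J → ℝ), ∑ x, ∑ y, χ a x * χ b y * X x y = X a b := fun a b X => by
    simp [hχ]
  have cs : ∀ x, (0 ≤ 2 * β x - 2 / 3 * (χ i x + χ j x + χ k x)) ∧
      2 * β x - 2 / 3 * (χ i x + χ j x + χ k x) ≤ 1 := fun x => by
    simp only [hχ]
    by_cases a : x = i
    · subst a
      simp only [if_true, ij, ik, if_false, bi]
      constructor <;> linarith
    by_cases b : x = j
    · subst b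
      simp only [if_true, a, jk, if_false, bj]
      constructor <;> linarith
    by_cases c : x = k
    · subst c
      simp only [if_true, a, b, if_false, bk]
      constructor <;> linarith
    simp only [a, b, c, if_false]
    constructor <;> linarith [h0 x, s3 x a b c]
  obtain ⟨c, d0, d1, d2⟩ := cvx _ (fun x => (cs x).1) (fun x => (cs x).2) (by
    simp only [Finset.sum_sub_distrib, ← Finset.mul_sum, Finset.sum_add_distrib, c1, hs]
    norm_num)
  refine ⟨fun x y => 1 / 2 * c x y + 1 / 12 * (χ i x * χ j y + χ j x * χ i y + χ i x * χ k y +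
    χ k x * χ i y + χ j x * χ k y + χ k x * χ j y), fun x => ?_, fun X hX => ?_⟩
  · simp only [Finset.sum_add_distrib, ← Finset.mul_sum, ← Finset.sum_mul, c1]
    linarith [d2 x]
  · have : 0 ≤ ∑ x, ∑ y, c x y * X x y := Finset.sum_nonneg fun x _ => Finset.sum_nonneg
      fun y _ => by
        by_cases e : x = y
        · rw [e, d1, zero_mul]
        · exact mul_nonneg (d0 x y) (hX x y e)
    simp only [add_mul, mul_assoc (1 / 2 : ℝ), mul_assoc (1 / 12 : ℝ), Finset.sum_add_distrib,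
      ← Finset.mul_sum, c2]
    linarith

variable {K : Type} [Field K] [Algebra ℂ K] {L : IntermediateField ℂ K} {n : ℕ}
  {M : Type} [Field M] [Algebra ℂ M] [Algebra K M] [IsScalarTower ℂ K M]

theorem cj_cj (τ : M ≃ₐ[K] M) (P : Pl M) : cj τ (cj τ.symm P) = P :=
  Pb.pl_ext (ValuationSubring.ext _ _ fun z => by
    rw [← cj_mem τ.symm P z, ← cj_mem τ (cj τ.symm P) (τ.symm z), τ.apply_symm_apply])

theorem up_CC {z : M} (h : IsAlgebraic (algebraicClosure L M) z) : IsAlgebraic L z :=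
  h.restrictScalars L

theorem cj_hor (τ : M ≃ₐ[K] M) {P : Pl M} (h : Hor (CC L M) P) : Hor (CC L M) (cj τ P) :=
  fun c hc => by
    rw [← τ.apply_symm_apply c, cj_mem]
    exact h _ (map_CC τ.symm hc)

omit [Algebra K M] [IsScalarTower ℂ K M] in
theorem gen_ord {P : Pl M} {s z : M} (h0 : s ∈ P.ring)
    (h : ∀ c : ℂ, ¬ Mx P (s - algebraMap ℂ M c)) (hz : z ∈ ℂ⟮s⟯) : P.ord z = 0 := by
  obtain ⟨p, q, rfl⟩ := (mem_adjoin_simple_iff ℂ z).1 hz
  have k : ∀ p : ℂ[X], P.ord (aeval s p) = 0 := fun p => by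
    by_cases p0 : aeval s p = 0
    · simp [p0]
    have e := congrArg (aeval s) (IsAlgClosed.splits p).eq_prod_roots
    rw [map_mul, aeval_C, map_multiset_prod] at e
    have := Multiset.prod_induction (fun x => x ≠ 0 ∧ P.ord x = 0)
      ((p.roots.map (X - C ·)).map (aeval s))
      (fun a b ha hb => ⟨mul_ne_zero ha.1 hb.1, by rw [Pl.ord_mul _ ha.1 hb.1, ha.2, hb.2]; rfl⟩)
      (by simp) fun a ha => by
        simp only [Multiset.map_map, Multiset.mem_map, Function.comp_apply, map_sub, aeval_X,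
          aeval_C] at ha
        obtain ⟨c, -, rfl⟩ := ha
        exact not_mx (sub_mem h0 (P.con c)) (h c)
    rw [e] at p0 ⊢
    rw [Pl.ord_mul _ (left_ne_zero_of_mul p0) this.1, this.2, P.ord_const]
    rfl
  by_cases p0 : aeval s p = 0
  · simp [p0]
  by_cases q0 : aeval s q = 0
  · simp [q0]
  rw [Pl.ord_div _ p0 q0, k, k]
  rfl

variable [FiniteDimensional K M] [IsGalois K M]

/-- an element with pairwise different conjugates modulo the place -/
theorem unr_gal {P' : Pl M} {P : Pl K} (l : Lies (algebraMap K M) P' P) {s z : M}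
    (h1 : ∀ τ : M ≃ₐ[K] M, P'.ord (τ s) = 0) (h2 : ∀ τ : M ≃ₐ[K] M, P'.ord (s - τ s) = 0)
    (hz : ∀ τ : M ≃ₐ[K] M, τ s = s → τ z = z) : P'.ord (algebraMap K M P.t) ∣ P'.ord z := by
  classical
  have i1 : IsIntegral K s := Algebra.IsIntegral.isIntegral s
  have sp := Normal.splits (F := K) inferInstance s
  have mo := (minpoly.monic i1).map (algebraMap K M)
  have rt : ∀ w ∈ ((minpoly K s).map (algebraMap K M)).roots, ∃ τ : M ≃ₐ[K] M, τ s = w :=
    fun w hw => minpoly.exists_algEquiv_of_root' i1.isAlgebraic (by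
      rw [← eval_map_algebraMap]; exact (mem_roots mo.ne_zero).1 hw)
  have lf : (minpoly K s).map (algebraMap K M) ∈ lifts P'.ring.subtype := by
    rw [sp.eq_prod_roots_of_monic mo]
    refine multiset_prod_mem _ fun q hq => ?_
    obtain ⟨w, hw, rfl⟩ := Multiset.mem_map.1 hq
    obtain ⟨τ, rfl⟩ := rt w hw
    exact (mem_lifts _).2 ⟨X - C ⟨_, mem_ord (h1 τ).ge⟩, by simp⟩
  obtain ⟨f, hf⟩ := (mem_lifts _).1 ((lifts_iff_coeff_lifts (f := P.ring.subtype)
    (minpoly K s)).2 fun m => by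
      obtain ⟨c, hc⟩ := (lifts_iff_coeff_lifts _).1 lf m
      rw [coeff_map] at hc
      exact ⟨⟨_, (l _).2 (hc ▸ c.2)⟩, rfl⟩)
  have e : ∀ q : Polynomial P.ring, q.eval₂ ((algebraMap K M).comp P.ring.subtype) s =
      ((q.map P.ring.subtype).map (algebraMap K M)).eval s := fun q => by
    rw [Polynomial.map_map, eval₂_eq_eval_map]
  have r0 : ((minpoly K s).map (algebraMap K M)).eval s = 0 := by
    rw [eval_map_algebraMap, minpoly.aeval]
  have nd := nodup_roots (Polynomial.Separable.map (f := algebraMap K M)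
    (show (minpoly K s).Separable from Algebra.IsSeparable.isSeparable K s))
  refine unr l (α := s) (mem_ord (h1 1).ge) f (by rw [e, hf, r0]) ?_ ?_
  · rw [e, ← derivative_map, hf, ← derivative_map,
      sp.eval_root_derivative mo ((mem_roots mo.ne_zero).2 r0), mx_iff]
    have := Multiset.prod_induction (fun x => x ≠ 0 ∧ P'.ord x = 0)
      ((((minpoly K s).map (algebraMap K M)).roots.erase s).map (s - ·))
      (fun a b ha hb => ⟨mul_ne_zero ha.1 hb.1, by rw [Pl.ord_mul _ ha.1 hb.1, ha.2, hb.2]; rfl⟩)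
      (by simp) fun a ha => by
        obtain ⟨w, hw, rfl⟩ := Multiset.mem_map.1 ha
        obtain ⟨w0, w1⟩ := nd.mem_erase_iff.1 hw
        obtain ⟨τ, rfl⟩ := rt w w1
        exact ⟨sub_ne_zero.2 w0.symm, h2 τ⟩
    simp [this.1, this.2]
  · have : z ∈ fixedField (K⟮s⟯).fixingSubgroup := (mem_fixedField_iff _ _).2 fun τ hτ =>
      hz τ ((IntermediateField.mem_fixingSubgroup_iff _ _).1 hτ s (mem_adjoin_simple_self K s))
    rw [IsGalois.fixedField_fixingSubgroup] at this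
    exact this

variable {y : Fin n → L} {α t g : M} {Γ : BD K} {N : BD L} {t₀ : K} {J : Type} [Fintype J]
  {a b : J → M} {β : J → ℝ} {W : BD M}

/-- the coordinate with the values `0, ∞, 1` -/
def cr (a b : J → M) (t : M) (i j k : J) : M :=
  (a j * b k - a k * b j) / (a i * b k - a k * b i) * ((a i * t + b i) / (a j * t + b j))

/-- the logarithmic form divided by `dt₀` -/
def et (a b : J → M) (t g : M) (i j : J) : M :=
  (a i * b j - a j * b i) / ((a i * t + b i) * (a j * t + b j) * g)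

namespace Cf

variable (h : Cf n L y α t Γ N t₀ g a b β W) {i j k i' j' k' : J} {τ : M ≃ₐ[K] M}
include h

theorem rat_eq (e1 : cj τ (h.pt i) = h.pt i') (e2 : cj τ (h.pt j) = h.pt j') :
    ∃ c ∈ CC L M, c ≠ 0 ∧ τ ((a i * t + b i) / (a j * t + b j)) =
      c * ((a i' * t + b i') / (a j' * t + b j')) := by
  classical
  have u0 := (_root_.map_ne_zero τ).2 (div_ne_zero (h.l_ne i) (h.l_ne j))
  have v0 := div_ne_zero (h.l_ne i') (h.l_ne j')
  refine ⟨_, ?_, div_ne_zero u0 v0, (div_mul_cancel₀ _ v0).symm⟩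
  by_contra hn
  obtain ⟨P, a1, a2⟩ := liou h.toBs.fm h.toBs.tr1 fun k => hn (mem_CC.2 (up_CC k))
  have k : ∀ {i i'}, cj τ (h.pt i) = h.pt i' → (cj τ.symm P = h.pt i ↔ P = h.pt i') :=
    fun e => by rw [← e, ← (cj_inj τ).eq_iff, cj_cj]
  rw [Pl.ord_div _ u0 v0, ← cj_symm, h.ord_l i j (cj_hor _ a1), h.ord_l i' j' a1] at a2
  simp only [k e1, k e2, sub_self, lt_irrefl] at a2

theorem comm {d : M → M} (d1 : De d) (d2 : ∀ c ∈ CC L M, d c = 0) (d3 : d t = 1)
    (τ : M ≃ₐ[K] M) (z : M) : τ (d z / g) = d (τ z) / g := by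
  have e : De fun z => τ.symm (d (τ z)) - τ.symm (d (τ t)) * d z :=
    ⟨fun x y => by rw [map_add, d1.add, d1.add, map_add]; ring, fun x y => by
      rw [map_mul, d1.mul, d1.mul]
      simp only [RingHom.id_apply, map_add, map_mul, τ.symm_apply_apply]
      ring⟩
  have k : ∀ z, z ∈ e.ker := fun z => by
    have : z ∈ ((CC L M)⟮t⟯).toSubfield := h.co.ge trivial
    rw [adjoin_toSubfield] at this
    refine Subfield.closure_le.2 ?_ this
    rintro _ (⟨c, rfl⟩ | rfl)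
    · change τ.symm (d (τ c)) - _ * d c = 0
      rw [d2 _ (map_CC τ c.2), d2 _ c.2, map_zero, mul_zero, sub_zero]
    · change _ - _ * _ = 0
      rw [d3, mul_one, sub_self]
  have k1 : ∀ z, d (τ z) = d (τ t) * τ (d z) := fun z => by
    have := congrArg τ (sub_eq_zero.1 (k z))
    rwa [map_mul, τ.apply_symm_apply, τ.apply_symm_apply] at this
  have k2 := k1 (algebraMap K M t₀)
  rw [τ.commutes, h.der d d1 d2 d3] at k2
  have g0 := h.g0
  have g1 := (_root_.map_ne_zero τ).2 g0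
  rw [map_div₀, k1 z, div_eq_div_iff g1 g0]
  linear_combination τ (d z) * k2

theorem et_eq (e1 : cj τ (h.pt i) = h.pt i') (e2 : cj τ (h.pt j) = h.pt j') :
    τ (et a b t g i j) = et a b t g i' j' := by
  obtain ⟨d, d1, d2, d3, -⟩ := h.toBs.exD
  obtain ⟨c, c1, c0, e⟩ := h.rat_eq e1 e2
  have k : ∀ i j, ∀ c ∈ CC L M, c ≠ 0 → et a b t g i j =
      d (c * ((a i * t + b i) / (a j * t + b j))) / g /
        (c * ((a i * t + b i) / (a j * t + b j))) := fun i j c c1 c0 => by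
    have := h.der_l d1 d2 d3 i j c1 (zero_mem _)
    rw [sub_zero] at this
    have li := h.l_ne i
    have lj := h.l_ne j
    have g0 := h.g0
    rw [this, et]
    generalize a i * t + b i = u, a j * t + b j = v, a i * b j - a j * b i = w at li lj ⊢
    field_simp
  rw [k i j 1 (one_mem _) one_ne_zero, one_mul, map_div₀, h.comm d1 d2 d3, e, ← k i' j' c c1 c0]

theorem dd_et (e : i ≠ j) (P : Pl M) : et a b t g i j ≠ 0 ∧
    dd y t a b i j P = kp y t P + 1 + P.ord g + P.ord (et a b t g i j) := by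
  have k := mul_ne_zero (h.l_ne i) (h.l_ne j)
  refine ⟨div_ne_zero (h.det i j e) (mul_ne_zero k h.g0), ?_⟩
  rw [et, Pl.ord_div _ (h.det i j e) (mul_ne_zero k h.g0), Pl.ord_mul _ k h.g0,
    Pl.ord_mul _ (h.l_ne i) (h.l_ne j), dd]
  push_cast
  ring

theorem cr_inv : cr a b t j i k = (cr a b t i j k)⁻¹ := by
  rw [cr, cr, mul_inv, inv_div, inv_div]

theorem cr_sub (ik : i ≠ k) : cr a b t k j i = 1 - cr a b t i j k := by
  have d1 := h.det i k ik
  have d2 := h.det k i ik.symm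
  have lj := h.l_ne j
  rw [cr, cr, div_mul_div_comm, div_mul_div_comm, one_sub_div (mul_ne_zero d1 lj),
    div_eq_div_iff (mul_ne_zero d2 lj) (mul_ne_zero d1 lj)]
  ring

theorem cr_pt (ij : i ≠ j) (ik : i ≠ k) (jk : j ≠ k) : (h.pt i).ord (cr a b t i j k) = 1 := by
  rw [cr, Pl.ord_mul _ (div_ne_zero (h.det j k jk) (h.det i k ik))
    (div_ne_zero (h.l_ne i) (h.l_ne j)), h.pt_ord ij.symm,
    hor_ord (h.pt_hor i) (div_mem (h.dl j k) (h.dl i k))]
  rfl

theorem cr_one (ij : i ≠ j) (ik : i ≠ k) (jk : j ≠ k) : Mx (h.pt k) (cr a b t i j k - 1) := by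
  have := h.cr_pt jk.symm ik.symm ij.symm
  rw [h.cr_sub ik, ← Pl.ord_neg, neg_sub] at this
  exact mx_iff.2 (Or.inr (by omega))

theorem cr_eq (ij : i ≠ j) (ik : i ≠ k) (jk : j ≠ k) (e1 : cj τ (h.pt i) = h.pt i')
    (e2 : cj τ (h.pt j) = h.pt j') (e3 : cj τ (h.pt k) = h.pt k') :
    τ (cr a b t i j k) = cr a b t i' j' k' := by
  have ne : ∀ {i j i' j'}, i ≠ j → cj τ (h.pt i) = h.pt i' → cj τ (h.pt j) = h.pt j' → i' ≠ j' :=
    fun e a b c => e (h.pt_inj (cj_inj τ (by rw [a, b, c])))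
  obtain ⟨c, c1, -, e⟩ := h.rat_eq e1 e2
  have m1 := (cj_mx τ _ _).2 (h.cr_one ij ik jk)
  have m2 := h.cr_one (ne ij e1 e2) (ne ik e1 e3) (ne jk e2 e3)
  have q1 := div_mem (h.dl j' k') (h.dl i' k')
  have q0 := div_ne_zero (h.det _ _ (ne jk e2 e3)) (h.det _ _ (ne ik e1 e3))
  have r1 := div_mem (mul_mem (map_CC τ (div_mem (h.dl j k) (h.dl i k))) c1) q1
  have e4 : τ (cr a b t i j k) = τ ((a j * b k - a k * b j) / (a i * b k - a k * b i)) * c /
      ((a j' * b k' - a k' * b j') / (a i' * b k' - a k' * b i')) * cr a b t i' j' k' := by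
    rw [cr, map_mul, e, cr, ← mul_assoc, ← mul_assoc, div_mul_cancel₀ _ q0]
  rw [e3, map_sub, map_one, e4] at m1
  have m3 := m2.mul (h.pt_hor k' _ r1)
  rw [mul_sub, mul_one] at m3
  rw [e4, ← cst_uniq (h.pt_hor k') (one_mem _) r1 m1 m3, one_mul]

theorem gen_cr {P : Pl M} {Q : Pl L} (l : Lies (algebraMap L M) P Q) (ij : i ≠ j) (ik : i ≠ k)
    (jk : j ≠ k) (e1 : dd y t a b i j P ≤ P.ord (algebraMap L M Q.t) * (kap y Q + 1))
    (e2 : dd y t a b k j P ≤ P.ord (algebraMap L M Q.t) * (kap y Q + 1))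
    (e3 : dd y t a b k i P ≤ P.ord (algebraMap L M Q.t) * (kap y Q + 1)) {z : M}
    (hz : z ∈ ℂ⟮cr a b t i j k⟯) : P.ord z = 0 := by
  have np : ∀ {i j}, i ≠ j → i ≠ k → j ≠ k →
      dd y t a b k j P ≤ P.ord (algebraMap L M Q.t) * (kap y Q + 1) →
      P.ord (cr a b t i j k) ≤ 0 := fun {i j} ij ik jk e => by
    by_contra hn
    have m : Mx P (cr a b t k j i - 1) := by
      rw [h.cr_sub ik, sub_sub_cancel_left, mx_iff, Pl.ord_neg]
      omega
    exact (h.strict jk.symm l (div_mem (h.dl j i) (h.dl k i))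
      (div_ne_zero (h.det _ _ ij.symm) (h.det _ _ ik.symm)) (one_mem _) (one_ord m).2 m).not_ge e
  have o1 := np ij ik jk e2
  have o2 := np ij.symm jk ik e3
  rw [h.cr_inv, Pl.ord_inv] at o2
  have o : P.ord (cr a b t i j k) = 0 := by omega
  exact gen_ord (mem_ord o.ge) (fun c m => (h.strict ij l (div_mem (h.dl j k) (h.dl i k))
    (div_ne_zero (h.det _ _ jk) (h.det _ _ ik)) ((CC L M).algebraMap_mem c) o m).not_ge e1) hz

theorem tri0 (h1 : ∀ P, Hor L P → dsc (n + 1) Γ P ≤ 0) {σ : Pl K} (ρ : L →+* σ.κ) (a1 : Hor L σ)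
    (hρ : ∀ a : L, ρ a = σ.rd a) (h3 : 3 ≤ Module.finrank (σ.im L) σ.κ)
    (a2 : dsc (n + 1) Γ σ < -1 / 2) : ∃ Z, Rz n L Γ N Z ∧ ∀ P Q R, Lies (inc L) P Q →
      Lies ρ R Q → 1 < R.ord (ρ Q.t) → dsc (n + 1) Γ P ≤ 0 → 1 / 12 ≤ Z Q := by
  classical
  have a3 : dsc (n + 1) Γ σ < 0 := by linarith
  obtain ⟨-, jj, π, j1, j2, j3, j4⟩ := h.fib a1 a3
  have bw : ∀ x : h.Ob σ, β x = -dsc (n + 1) Γ σ := fun x => by rw [h.dsc_pt x.2, neg_neg]
  have cd : (Finset.univ : Finset (h.Ob σ)).card = 3 := by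
    refine le_antisymm ?_ (h3.trans (h.deg_le a1 a3))
    have e := Finset.sum_le_sum_of_subset_of_nonneg (Finset.subset_univ
      (Finset.univ.map (Function.Embedding.subtype fun i => Lies (algebraMap K M) (h.pt i) σ)))
      fun i _ _ => h.nn h1 i
    rw [h.sum, Finset.sum_map] at e
    simp only [Function.Embedding.subtype_apply, bw, Finset.sum_const, nsmul_eq_mul] at e
    by_contra hn
    have : (4 : ℝ) ≤ (Finset.univ : Finset (h.Ob σ)).card := by exact_mod_cast not_le.1 hn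
    nlinarith
  obtain ⟨i, j, k, ij, ik, jk, eu⟩ := Finset.card_eq_three.1 cd
  have all : ∀ x, x = i ∨ x = j ∨ x = k := fun x => by simpa [eu] using Finset.mem_univ x
  have v := fun {x y : h.Ob σ} (e : x ≠ y) => (Subtype.coe_ne_coe.2 e : (x : J) ≠ y)
  obtain ⟨c, c2, c3⟩ := wts (h.nn h1) h.sum (v ij) (v ik) (v jk) (w := -dsc (n + 1) Γ σ)
    (by linarith) (bw i) (bw j) (bw k)
  obtain ⟨Z, z1, z2⟩ := h.core c c2
  have lo := fun (P : Pl K) Q (l0 : Lies (inc L) P Q) P' (l : Lies (algebraMap K M) P' P) x y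
    (e : x ≠ y) => sub_nonneg.2 (h.low e (lies_tw l l0))
  have rz : Rz n L Γ N Z := ⟨z1, fun P Q l0 => by
    have := z2 P Q 0 l0 fun P' l => by
      have q := lo P Q l0 P' l
      refine le_trans ?_ (c3 _ q)
      linarith [q _ _ (v ij), q _ _ (v ij.symm), q _ _ (v ik), q _ _ (v ik.symm), q _ _ (v jk),
        q _ _ (v jk.symm)]
    rwa [add_zero] at this⟩
  refine ⟨Z, rz, fun P Q R l0 lR r1 d0 => ?_⟩
  rcases (show 1 ≤ P.ord (inc L Q.t) from l0.e_pos).eq_or_lt with e | e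
  swap
  · have := rz.ge P Q l0
    have e' : (2 : ℝ) ≤ P.ord (inc L Q.t) := by exact_mod_cast e
    by_contra hn
    nlinarith
  have := z2 P Q (1 / 12) l0 fun P' l => ?_
  · rw [← e] at this
    push_cast at this
    linarith
  have q := lo P Q l0 P' l
  refine le_trans ?_ (c3 _ q)
  obtain ⟨Θ, hΘ⟩ : ∃ Θ : h.Ob σ → h.Ob σ → h.Ob σ → M, ∀ x y z, Θ x y z = et a b t g x y *
    et a b t g y x * et a b t g x z * et a b t g z x * et a b t g y z * et a b t g z y :=
    ⟨_, fun _ _ _ => rfl⟩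
  obtain ⟨θ, hθ⟩ := (IsGalois.mem_range_algebraMap_iff_fixed (F := K) (Θ i j k)).2 fun τ => by
    have : τ (Θ i j k) = Θ (π τ i) (π τ j) (π τ k) := by
      simp only [hΘ, map_mul, h.et_eq (j2 τ _) (j2 τ _)]
    rw [this]
    exact perm3 all ((π τ).injective.ne ij) ((π τ).injective.ne ik) ((π τ).injective.ne jk)
      (p := fun x y z => Θ x y z = Θ i j k) (fun x y z e => by rw [← e, hΘ, hΘ]; ring)
      (fun x y z e => by rw [← e, hΘ, hΘ]; ring) rfl
  have o := l.ord θ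
  obtain ⟨n1, f1⟩ := h.dd_et (v ij) P'
  obtain ⟨n2, f2⟩ := h.dd_et (v ij.symm) P'
  obtain ⟨n3, f3⟩ := h.dd_et (v ik) P'
  obtain ⟨n4, f4⟩ := h.dd_et (v ik.symm) P'
  obtain ⟨n5, f5⟩ := h.dd_et (v jk) P'
  obtain ⟨n6, f6⟩ := h.dd_et (v jk.symm) P'
  rw [hθ, hΘ, Pl.ord_mul _ (by simp [n1, n2, n3, n4, n5]) n6,
    Pl.ord_mul _ (by simp [n1, n2, n3, n4]) n5, Pl.ord_mul _ (by simp [n1, n2, n3]) n4,
    Pl.ord_mul _ (by simp [n1, n2]) n3, Pl.ord_mul _ n1 n2] at o
  obtain ⟨m, hm⟩ := h.int P' P l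
  obtain ⟨m', hm'⟩ := kap_int y Q
  have ee : P'.ord (algebraMap L M Q.t) = P'.ord (algebraMap K M P.t) := by
    rw [e_tw Q l, ← e, mul_one]
  have o' := congrArg (Int.cast (R := ℝ)) o
  push_cast at o'
  have q1 := q _ _ (v ij)
  have q2 := q _ _ (v ij.symm)
  have q3 := q _ _ (v ik)
  have q4 := q _ _ (v ik.symm)
  have q5 := q _ _ (v jk)
  have q6 := q _ _ (v jk.symm)
  have e0 : (0 : ℝ) < P'.ord (algebraMap K M P.t) := by exact_mod_cast l.e_pos
  by_contra hn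
  have w0 : 6 * m + P.ord θ - 6 * (m' + 1) ≤ 0 := by
    have : ((6 * m + P.ord θ - 6 * (m' + 1) : ℤ) : ℝ) < 1 := by
      refine lt_of_mul_lt_mul_left ?_ e0.le
      rw [ee, hm'] at hn
      push_cast
      linarith
    have : 6 * m + P.ord θ - 6 * (m' + 1) < 1 := by exact_mod_cast this
    omega
  have w1 : P'.ord (algebraMap K M P.t) * ((6 * m + P.ord θ - 6 * (m' + 1) : ℤ) : ℝ) ≤ 0 :=
    mul_nonpos_of_nonneg_of_nonpos e0.le (by exact_mod_cast w0)
  have w2 : (P'.ord (algebraMap L M Q.t) : ℝ) * (kap y Q + 1) =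
      P'.ord (algebraMap K M P.t) * (m' + 1) := by rw [ee, hm']
  push_cast at w1
  have go := fun z => h.gen_cr (lies_tw l l0) (v ij) (v ik) (v jk) (by linarith) (by linarith)
    (by linarith) (z := z)
  have ci : ∀ x y z : h.Ob σ, x ≠ y → x ≠ z → y ≠ z → cr a b t x y z ∈ ℂ⟮cr a b t i j k⟯ :=
    fun x y z xy xz yz => (perm3 all xy xz yz (p := fun x y z => (x ≠ y ∧ x ≠ z ∧ y ≠ z) ∧
      cr a b t x y z ∈ ℂ⟮cr a b t i j k⟯)
      (fun x y z e => ⟨⟨e.1.1.symm, e.1.2.2, e.1.2.1⟩, by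
        rw [h.cr_inv (i := x) (j := y)]; exact inv_mem e.2⟩)
      (fun x y z e => ⟨⟨e.1.2.2.symm, e.1.2.1.symm, e.1.1.symm⟩, by
        rw [h.cr_sub (v e.1.2.1)]; exact sub_mem (one_mem _) e.2⟩)
      ⟨⟨ij, ik, jk⟩, mem_adjoin_simple_self _ _⟩).2
  have ce := fun τ => h.cr_eq (v ij) (v ik) (v jk) (j2 τ i) (j2 τ j) (j2 τ k)
  have cm : ∀ τ : M ≃ₐ[K] M, τ (cr a b t i j k) ∈ ℂ⟮cr a b t i j k⟯ := fun τ => by
    rw [ce]
    exact ci _ _ _ ((π τ).injective.ne ij) ((π τ).injective.ne ik) ((π τ).injective.ne jk)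
  refine r1.ne' (unr_of_conj lR (lies_tw l l0) Finset.univ ⟨i, Finset.mem_univ _⟩ jj
    (fun x _ a => by rw [hρ, j1]) j4 fun x _ z => ?_)
  rw [ee]
  refine unr_gal l (s := cr a b t i j k) (fun τ => go _ (cm τ))
    (fun τ => go _ (sub_mem (mem_adjoin_simple_self _ _) (cm τ))) fun τ hτ => ?_
  have fx : ∀ {x y z : J}, x ≠ y → x ≠ z → y ≠ z → τ (cr a b t x y z) = cr a b t x y z →
      cj τ (h.pt x) = h.pt x := fun {x y z} xy xz yz e => by
    have := cj_ord τ (h.pt x) (cr a b t x y z)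
    rw [e, h.cr_pt xy xz yz, cr, Pl.ord_mul _ (div_ne_zero (h.det _ _ yz) (h.det _ _ xz))
      (div_ne_zero (h.l_ne _) (h.l_ne _)),
      hor_ord (cj_hor τ (h.pt_hor x)) (div_mem (h.dl _ _) (h.dl _ _))] at this
    exact h.eq_pt xy.symm (cj_hor τ (h.pt_hor x)) (by omega)
  have px : cj τ (h.pt x) = h.pt x := by
    rcases all x with rfl | rfl | rfl
    · exact fx (v ij) (v ik) (v jk) hτ
    · exact fx (v ij.symm) (v jk) (v ik) (by rw [h.cr_inv (i := i) (j := x), map_inv₀, hτ])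
    · exact fx (v jk.symm) (v ik.symm) (v ij.symm)
        (by rw [h.cr_sub (v ik), map_sub, map_one, hτ])
  rw [j3, show π τ x = x from Subtype.ext (h.pt_inj ((j2 τ x).symm.trans px))]

end Cf

end Ru

theorem tri : TRI := fun _ _ _ _ _ _ _ _ h σ ρ a1 hρ h3 a2 => by
  obtain ⟨G, g0, r, z⟩ := Ru.thin h
  obtain ⟨M, _, _, _, _, _, _, y, α, t, t₀, g, J, _, a, b, β, W, c⟩ :=
    Ru.exCf r.fk r.fl r.cld r.con (by simpa using r.prn)
  obtain ⟨Z, z1, z2⟩ := c.tri0 r.le ρ a1 hρ h3 (by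
    rwa [Ru.dsc_add, z σ a1 (by linarith), sub_zero])
  refine ⟨Z, Ru.rz_mono g0 z1, fun P Q R l1 l2 e d => z2 P Q R l1 l2 e ?_⟩
  rw [Ru.dsc_add]
  linarith [show 0 ≤ G P from g0 P]

end Vale.Agent.P287D
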