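import Vale.Agent.P287D.Pb.Bas
import Vale.Agent.P287D.Cb.Lg

/-!
# P287D, block RUL: fractional matchings, simple roots, Newton polygons
-/

open Set Polynomial
open Vale.Agent.P297Z Vale.Agent.P287D.Cb

noncomputable section

namespace Vale.Agent.P287D.Ru

theorem min_sup {a b c d : ℝ} (h : a ≤ b) (k : c ≤ d) :
    0 ≤ min b d - min a d - (min b c - min a c) := by
  simp only [min_def]
  split_ifs <;> linarith

theorem cvx_nat (m : ℕ) (b : ℕ → ℝ) (h0 : ∀ i, 0 ≤ b i) (h1 : ∀ i, b i ≤ 1)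
    (hs : ∑ i ∈ Finset.range m, b i = 2) : ∃ c : ℕ → ℕ → ℝ, (∀ i j, 0 ≤ c i j) ∧
      (∀ i < m, c i i = 0) ∧
      ∀ k < m, ∑ j ∈ Finset.range m, c k j + ∑ i ∈ Finset.range m, c i k = b k := by
  obtain ⟨S, hS⟩ : ∃ S : ℕ → ℝ, ∀ n, S n = ∑ i ∈ Finset.range n, b i := ⟨_, fun _ => rfl⟩
  have s0 : S 0 = 0 := by simp [hS]
  have sm : S m = 2 := by rw [hS, hs]
  have ss : ∀ n, S (n + 1) = S n + b n := fun n => by rw [hS, hS, Finset.sum_range_succ]
  have mono : Monotone S := monotone_nat_of_le_succ fun n => by rw [ss]; linarith [h0 n]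
  have nn : ∀ n, 0 ≤ S n := fun n => s0 ▸ mono (Nat.zero_le n)
  obtain ⟨u, hu⟩ : ∃ u : ℕ → ℝ, ∀ n, u n = min (S n) 1 := ⟨_, fun _ => rfl⟩
  obtain ⟨v, hv⟩ : ∃ v : ℕ → ℝ, ∀ n, v n = max (S n - 1) 0 := ⟨_, fun _ => rfl⟩
  have uv : ∀ n, u n + v n = S n := fun n => by
    rw [hu, hv, min_def, max_def]
    split_ifs <;> linarith
  have u0 : ∀ n, 0 ≤ u n := fun n => by rw [hu]; exact le_min (nn n) zero_le_one
  have u1 : ∀ n, u n ≤ 1 := fun n => by rw [hu]; exact min_le_right _ _
  have v0 : ∀ n, 0 ≤ v n := fun n => by rw [hv]; exact le_max_right _ _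
  have v1 : ∀ n ≤ m, v n ≤ 1 := fun n hn => by
    rw [hv]; exact max_le (by linarith [mono hn]) zero_le_one
  have um : ∀ n, u n ≤ u (n + 1) := fun n => by
    rw [hu, hu]; exact min_le_min_right _ (mono n.le_succ)
  have vm : ∀ n, v n ≤ v (n + 1) := fun n => by
    rw [hv, hv]; exact max_le_max_right _ (by linarith [mono n.le_succ])
  have a0 : u 0 = 0 := by rw [hu, s0]; norm_num
  have a1 : u m = 1 := by rw [hu, sm]; norm_num
  have b0 : v 0 = 0 := by rw [hv, s0]; norm_num
  have b1 : v m = 1 := by rw [hv, sm]; norm_num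
  refine ⟨fun i j => min (u (i + 1)) (v (j + 1)) - min (u i) (v (j + 1)) -
    (min (u (i + 1)) (v j) - min (u i) (v j)), fun i j => min_sup (um i) (vm j), fun i hi => ?_,
    fun k hk => ?_⟩
  · have : v (i + 1) ≤ u i := by
      rw [hu]
      refine le_min ?_ (v1 _ hi)
      rw [hv]
      exact max_le (by rw [ss]; linarith [h1 i]) (nn i)
    have h2 := um i
    have h3 := vm i
    beta_reduce
    rw [min_eq_right (this.trans h2), min_eq_right this, min_eq_right (h3.trans (this.trans h2)),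
      min_eq_right (h3.trans this)]
    ring
  · rw [Finset.sum_range_sub fun j => min (u (k + 1)) (v j) - min (u k) (v j)]
    have e : ∀ i, min (u (i + 1)) (v (k + 1)) - min (u i) (v (k + 1)) -
        (min (u (i + 1)) (v k) - min (u i) (v k)) =
        (min (u (i + 1)) (v (k + 1)) - min (u (i + 1)) (v k)) -
          (min (u i) (v (k + 1)) - min (u i) (v k)) := fun i => by ring
    simp only [e]
    rw [Finset.sum_range_sub fun i => min (u i) (v (k + 1)) - min (u i) (v k), a0, a1, b0, b1,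
      min_eq_left (u1 _), min_eq_left (u1 _), min_eq_right (u0 _), min_eq_right (u0 _),
      min_eq_right (v1 _ hk), min_eq_right (v1 _ hk.le), min_eq_left (v0 _), min_eq_left (v0 _)]
    linarith [uv k, uv (k + 1), ss k]

/-- weights in `[0, 1]` with sum two come from a fractional matching -/
theorem cvx {ι : Type} [Fintype ι] (b : ι → ℝ) (h0 : ∀ i, 0 ≤ b i) (h1 : ∀ i, b i ≤ 1)
    (hs : ∑ i, b i = 2) : ∃ c : ι → ι → ℝ, (∀ i j, 0 ≤ c i j) ∧ (∀ i, c i i = 0) ∧
      ∀ k, ∑ j, c k j + ∑ i, c i k = b k := by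
  let e := Fintype.equivFin ι
  let b' : ℕ → ℝ := fun n => if h : n < Fintype.card ι then b (e.symm ⟨n, h⟩) else 0
  have hb : ∀ i, b' (e i) = b i := fun i => by simp [b']
  have sm : ∀ g : ℕ → ℝ, ∑ i ∈ Finset.range (Fintype.card ι), g i = ∑ i, g (e i) := fun g => by
    rw [Finset.sum_range]
    exact (e.sum_comp fun i => g i).symm
  obtain ⟨c, c0, c1, c2⟩ := cvx_nat (Fintype.card ι) b'
    (fun i => by simp only [b']; split_ifs; exacts [h0 _, le_rfl])
    (fun i => by simp only [b']; split_ifs; exacts [h1 _, zero_le_one])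
    (by rw [sm]; simp only [hb, hs])
  refine ⟨fun i j => c (e i) (e j), fun i j => c0 _ _, fun i => c1 _ (e i).2, fun k => ?_⟩
  have := c2 (e k) (e k).2
  rwa [sm, sm fun i => c i (e k), hb] at this

variable {K M : Type} [Field K] [Algebra ℂ K] [Field M] [Algebra ℂ M]

theorem not_mx {P : Pl M} {x : M} (h : x ∈ P.ring) (k : ¬ Mx P x) : x ≠ 0 ∧ P.ord x = 0 := by
  rw [mx_iff, not_or] at k
  exact ⟨k.1, by have := Pl.ord_nonneg_of_mem _ h; omega⟩

theorem mx_lies {φ : K →+* M} {P' : Pl M} {P : Pl K} (h : Lies φ P' P) {x : K} :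
    Mx P' (φ x) ↔ Mx P x := by
  rw [mx_iff, mx_iff, h.ord_pos_iff, map_eq_zero]

theorem mx_sum {P : Pl M} {ι : Type} (s : Finset ι) {f : ι → M} (h : ∀ i ∈ s, Mx P (f i)) :
    Mx P (∑ i ∈ s, f i) := Finset.sum_induction f _ (fun _ _ => Mx.add) mx_zero h

theorem dvd_of_map (P : Pl K) {p : Polynomial P.ring}
    (h : p.map (IsLocalRing.residue P.ring) = 0) : C (⟨P.t, t_mem P⟩ : P.ring) ∣ p := by
  rw [C_dvd_iff_dvd_coeff]
  intro i
  have := congrArg (fun q => q.coeff i) h
  simp only [coeff_map, coeff_zero] at this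
  have k : Mx P (p.coeff i) := (rd_eq_zero (p.coeff i).2).1 ((rd_of _).trans this)
  refine ⟨⟨_, k⟩, Subtype.ext ?_⟩
  change _ = P.t * (_ / P.t)
  rw [mul_div_cancel₀ _ P.t_ne]

/-- **UNR**: a simple root modulo the place generates an unramified extension -/
theorem unr {φ : K →+* M} {P' : Pl M} {P : Pl K} (h : Lies φ P' P) {α : M} (hα : α ∈ P'.ring)
    (f : Polynomial P.ring) (hf : f.eval₂ (φ.comp P.ring.subtype) α = 0)
    (hd : ¬ Mx P' ((derivative f).eval₂ (φ.comp P.ring.subtype) α)) {z : M}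
    (hz : z ∈ Subfield.closure (range φ ∪ {α})) : P'.ord (φ P.t) ∣ P'.ord z := by
  classical
  obtain ⟨ev, hev⟩ : ∃ ev : Polynomial P.ring →+* M,
    ev = eval₂RingHom (φ.comp P.ring.subtype) α := ⟨_, rfl⟩
  have evC : ∀ a, ev (C a) = φ a := fun a => by simp [hev]
  have evX : ev X = α := by simp [hev]
  have mem : ∀ q, ev q ∈ P'.ring := fun q => by
    induction q using Polynomial.induction_on with
    | C a => rw [evC]; exact (h _).1 a.2
    | add p q hp hq => rw [map_add]; exact add_mem hp hq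
    | monomial n a k => rw [pow_succ, ← mul_assoc, map_mul, evX]; exact mul_mem k hα
  have e0 := h.e_pos
  have t0 : φ P.t ≠ 0 := (map_ne_zero φ).2 P.t_ne
  have mt : ∀ w, Mx P' (ev (C ⟨P.t, t_mem P⟩ * w)) := fun w => by
    rw [map_mul, evC, mul_comm]
    exact Mx.mul (mx_iff.2 (Or.inr e0)) (mem w)
  replace hf : ev f = 0 := by rw [hev]; exact hf
  replace hd : ¬ Mx P' (ev (derivative f)) := by rw [hev]; exact hd
  have sur := Polynomial.map_surjective (IsLocalRing.residue P.ring) IsLocalRing.residue_surjective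
  have key : ∀ q, Mx P' (ev q) → ∃ g w, ¬ Mx P' (ev g) ∧ ev q * ev g = φ P.t * ev w := by
    intro q hq
    set r := IsLocalRing.residue P.ring
    obtain ⟨g', hg⟩ := EuclideanDomain.gcd_dvd_right (q.map r) (f.map r)
    obtain ⟨q', hq'⟩ := EuclideanDomain.gcd_dvd_left (q.map r) (f.map r)
    have bz := EuclideanDomain.gcd_eq_gcd_ab (q.map r) (f.map r)
    obtain ⟨d, hd'⟩ := sur (EuclideanDomain.gcd (q.map r) (f.map r))
    obtain ⟨a, ha⟩ := sur (EuclideanDomain.gcdA (q.map r) (f.map r))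
    obtain ⟨b, hb⟩ := sur (EuclideanDomain.gcdB (q.map r) (f.map r))
    obtain ⟨g, rfl⟩ := sur g'
    obtain ⟨q1, rfl⟩ := sur q'
    rw [← hd'] at hg hq' bz
    rw [← ha, ← hb] at bz
    obtain ⟨w1, e1⟩ := dvd_of_map P (p := d - (q * a + f * b))
      (by rw [Polynomial.map_sub, Polynomial.map_add, Polynomial.map_mul, Polynomial.map_mul, ← bz,
        sub_self])
    obtain ⟨w2, e2⟩ := dvd_of_map P (p := f - d * g)
      (by rw [Polynomial.map_sub, Polynomial.map_mul, ← hg, sub_self])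
    obtain ⟨w3, e3⟩ := dvd_of_map P (p := q * g - f * q1) (by
      rw [Polynomial.map_sub, Polynomial.map_mul, Polynomial.map_mul]
      linear_combination (g.map r) * hq' - (q1.map r) * hg)
    have md : Mx P' (ev d) := by
      have := mt w1
      rw [← e1, map_sub, map_add, map_mul, map_mul, hf, zero_mul, add_zero] at this
      have k := this.add (hq.mul (mem a))
      rwa [mul_comm, sub_add_cancel] at k
    refine ⟨g, w3, fun mg => hd ?_, ?_⟩
    · have e4 := congrArg derivative e2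
      rw [derivative_sub, derivative_mul, derivative_C_mul] at e4
      have := mt (derivative w2)
      rw [← e4, map_sub, map_add, map_mul, map_mul] at this
      have k := this.add ((mg.mul (mem (derivative d))).add (md.mul (mem (derivative g))))
      rwa [mul_comm (ev (derivative g)), sub_add_cancel] at k
    · have := congrArg ev e3
      rwa [map_sub, map_mul, map_mul, hf, zero_mul, sub_zero, map_mul, evC] at this
  have ind : ∀ (k : ℕ) q, P'.ord (ev q) ≤ k → P'.ord (φ P.t) ∣ P'.ord (ev q) := by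
    intro k
    induction k with
    | zero =>
      intro q hq
      have := Pl.ord_nonneg_of_mem _ (mem q)
      rw [show P'.ord (ev q) = 0 by omega]
      exact dvd_zero _
    | succ k ih =>
      intro q hq
      by_cases q0 : ev q = 0
      · simp [q0]
      by_cases m : Mx P' (ev q)
      · obtain ⟨g, w, hg, e⟩ := key q m
        obtain ⟨g0, g1⟩ := not_mx (mem g) hg
        have w0 : ev w ≠ 0 := fun w0 => mul_ne_zero q0 g0 (by rw [e, w0, mul_zero])
        have := congrArg P'.ord e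
        rw [Pl.ord_mul _ q0 g0, Pl.ord_mul _ t0 w0, g1, add_zero] at this
        rw [this]
        exact dvd_add dvd_rfl (ih w (by push_cast at hq; omega))
      · rw [(not_mx (mem q) m).2]
        exact dvd_zero _
  have le : Subfield.closure (range φ ∪ {α}) ≤ Subfield.closure (ev.range : Set M) := by
    refine Subfield.closure_le.2 ?_
    rintro _ (⟨x, rfl⟩ | rfl)
    · rcases P.ring.mem_or_inv_mem x with k | k
      · exact Subfield.subset_closure ⟨C ⟨x, k⟩, evC _⟩
      · have : φ x⁻¹ ∈ Subfield.closure (ev.range : Set M) :=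
          Subfield.subset_closure ⟨C ⟨x⁻¹, k⟩, evC _⟩
        have := inv_mem this
        rwa [map_inv₀, inv_inv] at this
    · exact Subfield.subset_closure ⟨X, evX⟩
  obtain ⟨a, ha, b, hb, rfl⟩ := Subfield.mem_closure_iff.1 (le hz)
  rw [Subring.closure_eq] at ha hb
  obtain ⟨a, rfl⟩ := ha
  obtain ⟨b, rfl⟩ := hb
  by_cases a0 : ev a = 0
  · simp [a0]
  by_cases b0 : ev b = 0
  · simp [b0]
  rw [Pl.ord_div _ a0 b0]
  exact dvd_sub (ind _ a (Int.self_le_toNat _)) (ind _ b (Int.self_le_toNat _))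

variable {L E : Type} [Field L] [Algebra ℂ L] [Field E] [Algebra ℂ E]

/-- **NP**: a unit at one place above `Q` has a conjugate which is a unit at any other one -/
theorem np {ρ : L →+* E} {μ : L →+* M} {R : Pl E} {P : Pl M} {Q : Pl L} (hR : Lies ρ R Q)
    (hP : Lies μ P Q) {ι : Type} (s : Finset ι) (w : ι → M) (p : Polynomial L) {u : E}
    (hp : p.map μ = ∏ i ∈ s, (X - C (w i))) (hu : p.eval₂ ρ u = 0) (u0 : u ≠ 0)
    (u1 : R.ord u = 0) : ∃ i ∈ s, P.ord (w i) = 0 := by
  classical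
  by_contra hn
  push Not at hn
  have hG : ∃ (G : Polynomial P.ring) (k : ℕ) (a : M), a ≠ 0 ∧
      G.map (IsLocalRing.residue P.ring) = X ^ k ∧ G.map P.ring.subtype = C a * p.map μ := by
    rw [hp]
    refine Finset.prod_induction _ (fun q => ∃ (G : Polynomial P.ring) (k : ℕ) (a : M), a ≠ 0 ∧
      G.map (IsLocalRing.residue P.ring) = X ^ k ∧ G.map P.ring.subtype = C a * q) ?_
      ⟨1, 0, 1, one_ne_zero, by simp, by simp⟩ fun i hi => ?_
    · rintro q q' ⟨G, k, a, a0, h1, h2⟩ ⟨G', k', a', a0', h1', h2'⟩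
      refine ⟨G * G', k + k', a * a', mul_ne_zero a0 a0', ?_, ?_⟩
      · rw [Polynomial.map_mul, h1, h1', pow_add]
      · rw [Polynomial.map_mul, h2, h2', C_mul]; ring
    · have w0 : w i ≠ 0 := fun e => hn i hi (by simp [e])
      rcases lt_or_gt_of_ne (hn i hi) with k | k
      · have m : Mx P (w i)⁻¹ := mx_iff.2 (Or.inr (by rw [Pl.ord_inv]; omega))
        have r : IsLocalRing.residue P.ring ⟨_, m.mem⟩ = 0 :=
          (rd_of m.mem).symm.trans ((rd_eq_zero m.mem).2 m)
        refine ⟨1 - C ⟨_, m.mem⟩ * X, 0, -(w i)⁻¹, neg_ne_zero.2 (inv_ne_zero w0), by simp [r], ?_⟩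
        have : C (w i)⁻¹ * C (w i) = 1 := by rw [← C_mul, inv_mul_cancel₀ w0, C_1]
        simp only [Polynomial.map_sub, Polynomial.map_mul, Polynomial.map_one, map_C, map_X, C_neg]
        change 1 - C (w i)⁻¹ * X = _
        linear_combination -this
      · have m : Mx P (w i) := mx_iff.2 (Or.inr k)
        have r : IsLocalRing.residue P.ring ⟨_, m.mem⟩ = 0 :=
          (rd_of m.mem).symm.trans ((rd_eq_zero m.mem).2 m)
        exact ⟨X - C ⟨_, m.mem⟩, 1, 1, one_ne_zero, by simp [r], by simp⟩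
  obtain ⟨G, k, a, a0, h1, h2⟩ := hG
  have c1 : ∀ n, P.rd (G.coeff n) = if n = k then 1 else 0 := fun n => by
    have := congrArg (fun q => q.coeff n) h1
    simp only [coeff_map, coeff_X_pow] at this
    exact (rd_of _).trans this
  have c2 : ∀ n, (G.coeff n : M) = a * μ (p.coeff n) := fun n => by
    have := congrArg (fun q => q.coeff n) h2
    simp only [coeff_map, coeff_C_mul] at this
    exact this
  have nk : ¬ Mx P (G.coeff k) := fun m => by
    have := (rd_eq_zero (G.coeff k).2).2 m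
    rw [c1, if_pos rfl] at this
    exact one_ne_zero this
  have k0 : p.coeff k ≠ 0 := fun e => nk (by rw [c2, e, map_zero, mul_zero]; exact mx_zero)
  have mn : ∀ n, n ≠ k → Mx R (ρ (p.coeff n / p.coeff k)) := fun n hn => by
    rw [mx_lies hR, ← mx_lies hP]
    have m : Mx P (G.coeff n) := (rd_eq_zero (G.coeff n).2).1 (by rw [c1, if_neg hn])
    have := m.mul (inv_mem_of nk)
    rw [c2, c2] at this
    have e : μ (p.coeff n / p.coeff k) = (a * μ (p.coeff k))⁻¹ * (a * μ (p.coeff n)) := by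
      have := (map_ne_zero μ).2 k0
      rw [map_div₀]
      field_simp
    rwa [e]
  have um : u ∈ R.ring := mem_ord u1.ge
  have ks : k ∈ p.support := mem_support_iff.2 k0
  rw [eval₂_eq_sum, Polynomial.sum, ← Finset.add_sum_erase _ _ ks] at hu
  have ms : Mx R (∑ n ∈ p.support.erase k, u ^ n * ρ (p.coeff n / p.coeff k)) :=
    mx_sum _ fun n hn => (mn n (Finset.ne_of_mem_erase hn)).mul (pow_mem um n)
  have r0 := (map_ne_zero ρ).2 k0
  have e : ∑ n ∈ p.support.erase k, u ^ n * ρ (p.coeff n / p.coeff k) = -u ^ k := by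
    apply mul_left_cancel₀ r0
    rw [Finset.mul_sum, Finset.sum_congr rfl (g := fun n => ρ (p.coeff n) * u ^ n) fun n _ => by
      rw [map_div₀]; field_simp]
    linear_combination hu
  rw [e, mx_iff, Pl.ord_neg, Pl.ord_pow, u1] at ms
  simp [u0] at ms

/-- if all the conjugates have integral values then all places above `Q` are unramified -/
theorem unr_of_conj {ρ : L →+* E} {μ : L →+* M} {R : Pl E} {P : Pl M} {Q : Pl L} (hR : Lies ρ R Q)
    (hP : Lies μ P Q) {ι : Type} (s : Finset ι) (hs : s.Nonempty) (j : ι → E →+* M)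
    (hj : ∀ i ∈ s, ∀ a, j i (ρ a) = μ a)
    (hp : ∀ u, ∃ p : Polynomial L, p.map μ = ∏ i ∈ s, (X - C (j i u)))
    (hd : ∀ i ∈ s, ∀ z, P.ord (μ Q.t) ∣ P.ord (j i z)) : R.ord (ρ Q.t) = 1 := by
  by_contra hne
  have e0 := hR.e_pos
  have r0 : ρ Q.t ≠ 0 := (map_ne_zero ρ).2 Q.t_ne
  have z0 : R.t ^ R.ord (ρ Q.t) ≠ 0 := zpow_ne_zero _ R.t_ne
  obtain ⟨p, hp⟩ := hp (R.t ^ R.ord (ρ Q.t) / ρ Q.t)
  obtain ⟨i0, hi0⟩ := hs
  obtain ⟨i, hi, k⟩ := np hR hP s _ p hp (u := R.t ^ R.ord (ρ Q.t) / ρ Q.t) (by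
    apply (j i0).injective
    rw [map_zero, hom_eval₂, show (j i0).comp ρ = μ from RingHom.ext (hj i0 hi0), eval₂_eq_eval_map,
      hp, eval_prod]
    exact Finset.prod_eq_zero hi0 (by simp)) (div_ne_zero z0 r0)
    (by rw [Pl.ord_div _ z0 r0, Pl.ord_zpow, R.ord_t]; ring)
  obtain ⟨m, hm⟩ := hd i hi R.t
  rw [map_div₀, Pl.ord_div _ ((_root_.map_ne_zero _).2 z0)
    ((_root_.map_ne_zero _).2 r0), map_zpow₀, Pl.ord_zpow,
    hj i hi, hm] at k
  have : P.ord (μ Q.t) * (R.ord (ρ Q.t) * m - 1) = 0 := by linear_combination k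
  have h1 : R.ord (ρ Q.t) * m = 1 := by
    have := (mul_eq_zero.1 this).resolve_left hP.e_pos.ne'
    omega
  exact hne (Int.eq_one_of_mul_eq_one_right e0.le h1)

end Vale.Agent.P287D.Ru
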